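import Vale.Agent.P336.W

/-!
Tails of the number of live variables.
-/

namespace Vale.Agent.P336

open Finset

variable {n : ℕ}

lemma avA_pow {M : ℕ} (hM : 0 < M) (hMn : M ≤ n) {x y c : ℝ} (hx : 0 ≤ x)
    (h : x ≤ y * Real.exp (c * ((M : ℝ) / n))) : x ^ n ≤ y ^ n * Real.exp (c * M) := by
  have hn : (n : ℝ) ≠ 0 := by exact_mod_cast (by omega : n ≠ 0)
  refine (pow_le_pow_left₀ hx h n).trans (le_of_eq ?_)
  rw [mul_pow, ← Real.exp_nat_mul]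
  congr 2
  field_simp

lemma avA_u {M : ℕ} (hMn : M ≤ n) : 0 ≤ (M : ℝ) / n ∧ (M : ℝ) / n ≤ 1 :=
  ⟨by positivity, div_le_one_of_le₀ (by exact_mod_cast hMn) (Nat.cast_nonneg _)⟩

lemma avA_two (m : ℕ) : (2 : ℝ) ^ m = Real.exp (Real.log 2 * m) := by
  rw [mul_comm, Real.exp_nat_mul, Real.exp_log (by norm_num)]

lemma avA_exp {c u : ℝ} (h0 : 0 ≤ u) {x : ℝ} (h : x ≤ (2 + 2 * u) * (c * u + 1)) :
    x ≤ (2 + 2 * u) * Real.exp (c * u) :=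
  h.trans (mul_le_mul_of_nonneg_left (Real.add_one_le_exp _) (by linarith))

/-- With `u = M / n ≤ 1`: `2 + 15 u / 8 ≤ (2 + 2 u) * exp (-u / 32)`, `n u = M`,
`24 (t + 14) ≤ M` and `2 ≤ exp (3 / 4)`. -/
lemma tail_good {t M : ℕ} (hM : 24 * (t + 14) ≤ M) (hMn : M ≤ n) :
    (2 + (M : ℝ) / n * (15 / 8)) ^ n * 2 ^ (t + 14) ≤ (2 + 2 * ((M : ℝ) / n)) ^ n := by
  obtain ⟨h0, h1⟩ := avA_u hMn
  have h2 := avA_pow (by omega) hMn (x := 2 + (M : ℝ) / n * (15 / 8)) (by linarith)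
    (avA_exp (c := -1 / 32) h0 (by nlinarith))
  have h3 : (24 : ℝ) * ((t + 14 : ℕ) : ℝ) ≤ M := by exact_mod_cast hM
  have h4 : Real.exp (-1 / 32 * M) * 2 ^ (t + 14) ≤ 1 := by
    rw [avA_two, ← Real.exp_add, Real.exp_le_one_iff]
    have := Real.log_two_lt_d9
    have h5 : (0 : ℝ) ≤ ((t + 14 : ℕ) : ℝ) := Nat.cast_nonneg _
    nlinarith
  have h5 : (0 : ℝ) ≤ (2 + 2 * ((M : ℝ) / n)) ^ n := by positivity
  calc _ ≤ (2 + 2 * ((M : ℝ) / n)) ^ n * Real.exp (-1 / 32 * M) * 2 ^ (t + 14) :=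
        mul_le_mul_of_nonneg_right h2 (by positivity)
    _ ≤ _ := by rw [mul_assoc]; exact mul_le_of_le_one_right h5 h4

/-- On the set `(2 u) ^ live ρ ≤ 2 ^ (M / 8) * u ^ live ρ`; `sum_pow_live`,
`2 + u ≤ (2 + 2 u) * exp (-u / 4)`. -/
lemma tail_low {t M : ℕ} (hM : 24 * (t + 14) ≤ M) (hMn : M ≤ n) :
    (∑ ρ ∈ univ.filter (fun ρ : Res n => 8 * live ρ < M), (2 * ((M : ℝ) / n)) ^ live ρ) *
      2 ^ (t + 14) ≤ (2 + 2 * ((M : ℝ) / n)) ^ n := by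
  obtain ⟨h0, h1⟩ := avA_u hMn
  have h2 := avA_pow (by omega) hMn (x := 2 + (M : ℝ) / n) (by linarith)
    (avA_exp (c := -1 / 4) h0 (by nlinarith))
  have h3 : (24 : ℝ) * ((t + 14 : ℕ) : ℝ) ≤ M := by exact_mod_cast hM
  have hl := Real.log_two_lt_d9
  have hl0 : 0 < Real.log 2 := Real.log_pos (by norm_num)
  have h6 : ∑ ρ ∈ univ.filter (fun ρ : Res n => 8 * live ρ < M), (2 * ((M : ℝ) / n)) ^ live ρ ≤
      Real.exp (M / 8) * (2 + (M : ℝ) / n) ^ n := by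
    rw [← sum_pow_live, Finset.mul_sum]
    refine le_trans (Finset.sum_le_sum fun ρ hρ => ?_)
      (Finset.sum_le_sum_of_subset_of_nonneg (Finset.filter_subset _ _) fun _ _ _ => by positivity)
    rw [mul_pow]
    refine mul_le_mul_of_nonneg_right ?_ (by positivity)
    have h7 : (8 : ℝ) * (live ρ : ℝ) ≤ M := by exact_mod_cast (Finset.mem_filter.1 hρ).2.le
    have h8 : (0 : ℝ) ≤ live ρ := Nat.cast_nonneg _
    rw [avA_two, Real.exp_le_exp]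
    nlinarith
  have h4 : Real.exp (M / 8) * Real.exp (-1 / 4 * M) * 2 ^ (t + 14) ≤ 1 := by
    rw [avA_two, ← Real.exp_add, ← Real.exp_add, Real.exp_le_one_iff]
    have h5 : (0 : ℝ) ≤ ((t + 14 : ℕ) : ℝ) := Nat.cast_nonneg _
    nlinarith
  have h5 : (0 : ℝ) ≤ (2 + 2 * ((M : ℝ) / n)) ^ n := by positivity
  calc _ ≤ Real.exp (M / 8) * ((2 + 2 * ((M : ℝ) / n)) ^ n * Real.exp (-1 / 4 * M)) *
        2 ^ (t + 14) := mul_le_mul_of_nonneg_right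
          (h6.trans (mul_le_mul_of_nonneg_left h2 (Real.exp_pos _).le)) (by positivity)
    _ = (2 + 2 * ((M : ℝ) / n)) ^ n *
        (Real.exp (M / 8) * Real.exp (-1 / 4 * M) * 2 ^ (t + 14)) := by ring
    _ ≤ _ := mul_le_of_le_one_right h5 h4

/-- On the set `4 ^ M * (2 u) ^ live ρ ≤ (4 u) ^ live ρ`; `sum_pow_live`,
`2 + 4 u ≤ (2 + 2 u) * exp u`, `exp 1 ≤ 3`, `2 * 3 ^ 24 ≤ 4 ^ 24`. -/
lemma tail_high {t M : ℕ} (hM : 24 * (t + 14) ≤ M) (hMn : M ≤ n) :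
    (∑ ρ ∈ univ.filter (fun ρ : Res n => 2 * M < live ρ), (2 * ((M : ℝ) / n)) ^ live ρ) *
      2 ^ (t + 14) ≤ (2 + 2 * ((M : ℝ) / n)) ^ n := by
  obtain ⟨h0, h1⟩ := avA_u hMn
  have h2 := avA_pow (by omega) hMn (x := 2 + 4 * ((M : ℝ) / n)) (by linarith)
    (avA_exp (c := 1) h0 (by nlinarith))
  have h3 : (24 : ℝ) * ((t + 14 : ℕ) : ℝ) ≤ M := by exact_mod_cast hM
  have hl := Real.log_two_lt_d9
  have hl0 := Real.log_two_gt_d9
  have h6 : ∑ ρ ∈ univ.filter (fun ρ : Res n => 2 * M < live ρ), (2 * ((M : ℝ) / n)) ^ live ρ ≤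
      Real.exp (-(Real.log 2 * (2 * M))) * (2 + 4 * ((M : ℝ) / n)) ^ n := by
    rw [← sum_pow_live, Finset.mul_sum]
    refine le_trans (Finset.sum_le_sum fun ρ hρ => ?_)
      (Finset.sum_le_sum_of_subset_of_nonneg (Finset.filter_subset _ _) fun _ _ _ => by positivity)
    rw [show 4 * ((M : ℝ) / n) = 2 * (2 * ((M : ℝ) / n)) by ring, mul_pow 2 (2 * ((M : ℝ) / n)),
      ← mul_assoc]
    refine le_mul_of_one_le_left (by positivity) ?_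
    have h7 : (2 : ℝ) * M ≤ (live ρ : ℝ) := by exact_mod_cast (Finset.mem_filter.1 hρ).2.le
    rw [avA_two, ← Real.exp_add, Real.one_le_exp_iff]
    nlinarith
  have h4 : Real.exp (-(Real.log 2 * (2 * M))) * Real.exp (1 * M) * 2 ^ (t + 14) ≤ 1 := by
    rw [avA_two, ← Real.exp_add, ← Real.exp_add, Real.exp_le_one_iff]
    have h5 : (0 : ℝ) ≤ ((t + 14 : ℕ) : ℝ) := Nat.cast_nonneg _
    have h7 : (0 : ℝ) ≤ M := Nat.cast_nonneg _
    nlinarith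
  have h5 : (0 : ℝ) ≤ (2 + 2 * ((M : ℝ) / n)) ^ n := by positivity
  calc _ ≤ Real.exp (-(Real.log 2 * (2 * M))) *
        ((2 + 2 * ((M : ℝ) / n)) ^ n * Real.exp (1 * M)) * 2 ^ (t + 14) :=
        mul_le_mul_of_nonneg_right
          (h6.trans (mul_le_mul_of_nonneg_left h2 (Real.exp_pos _).le)) (by positivity)
    _ = (2 + 2 * ((M : ℝ) / n)) ^ n *
        (Real.exp (-(Real.log 2 * (2 * M))) * Real.exp (1 * M) * 2 ^ (t + 14)) := by ring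
    _ ≤ _ := mul_le_of_le_one_right h5 h4

end Vale.Agent.P336
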