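import Vale.Agent.P336.Se
import Vale.Agent.P336.AvA

/-!
A good seed by averaging.
-/

namespace Vale.Agent.P336

open Finset

variable {n : ℕ}

open Classical in
/-- The cost of a restriction for a seed. -/
noncomputable def Av_cf (b : ℕ) (g : Pt n → ℝ) (ρ : Res n) : ℝ :=
  if Good b ρ g then (15 / 8) ^ live ρ else 2 ^ live ρ

lemma Av_cf_nonneg (b : ℕ) (g : Pt n → ℝ) (ρ : Res n) : 0 ≤ Av_cf b g ρ := by
  unfold Av_cf
  split_ifs <;> positivity

lemma Av_test {b : ℕ} {g : Pt n → ℝ} (hg : ∀ x, |g x| ≤ 1) (ρ : Res n) (B : Finset (Pt n))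
    (hB : IsTest b ρ B) : |∑ x ∈ B, g x| ≤ Av_cf b g ρ := by
  unfold Av_cf
  split_ifs with h
  · exact h B hB
  · refine (abs_sum_le_sum_abs _ _).trans ?_
    have h1 := sum_le_card_nsmul B (fun x => |g x|) 1 fun x _ => hg x
    have h2 : (B.card : ℝ) ≤ 2 ^ live ρ := by
      have := card_le_card hB.1
      rw [card_cube] at this
      exact_mod_cast this
    rw [nsmul_eq_mul, mul_one] at h1
    exact h1.trans h2

lemma Av_card (q s : ℕ) [Fact q.Prime] :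
    Fintype.card (ZMod q × (Fin (2 * s) → ZMod q)) = q ^ (2 * s + 1) := by
  simp [ZMod.card, pow_succ']

lemma Av_rho {t M b s q : ℕ} [Fact q.Prime] (hP : Par n t M b s q) {u : ℝ} (hu : 0 ≤ u)
    (ρ : Res n) :
    (∑ p : ZMod q × (Fin (2 * s) → ZMod q), u ^ live ρ * Av_cf b (gs p.1 p.2) ρ) * 2 ^ (t + 14) ≤
      (q : ℝ) ^ (2 * s + 1) * ((u * (15 / 8)) ^ live ρ * 2 ^ (t + 14) +
        (if 8 * live ρ < M then (2 * u) ^ live ρ else 0) * 2 ^ (t + 14) +
        (if 2 * M < live ρ then (2 * u) ^ live ρ else 0) * 2 ^ (t + 14) +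
        2 * (2 * u) ^ live ρ) := by
  classical
  have h1 : ∑ p : ZMod q × (Fin (2 * s) → ZMod q), u ^ live ρ * Av_cf b (gs p.1 p.2) ρ ≤
      ∑ p : ZMod q × (Fin (2 * s) → ZMod q), ((u * (15 / 8)) ^ live ρ +
        (2 * u) ^ live ρ * if ¬ Good b ρ (gs p.1 p.2) then 1 else 0) := by
    refine sum_le_sum fun p _ => ?_
    unfold Av_cf
    have : 0 ≤ (u * (15 / 8)) ^ live ρ := by positivity
    by_cases h : Good b ρ (gs p.1 p.2)
    · simp [h, mul_pow]
    · rw [if_neg h, if_pos h, mul_pow 2 u]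
      linarith
  rw [sum_add_distrib, sum_const, card_univ, Av_card, nsmul_eq_mul,
    ← mul_sum _ _ ((2 * u) ^ live ρ), sum_boole] at h1
  have h2 : ((univ.filter fun p : ZMod q × (Fin (2 * s) → ZMod q) =>
      ¬ Good b ρ (gs p.1 p.2)).card : ℝ) ≤ (q : ℝ) ^ (2 * s + 1) := by
    have := card_filter_le (univ : Finset (ZMod q × (Fin (2 * s) → ZMod q)))
      fun p => ¬ Good b ρ (gs p.1 p.2)
    rw [card_univ, Av_card] at this
    exact_mod_cast this
  have h3 := seed_bad hP ρ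
  push_cast at h1
  generalize ((univ.filter fun p : ZMod q × (Fin (2 * s) → ZMod q) =>
      ¬ Good b ρ (gs p.1 p.2)).card : ℝ) = β at h1 h2 h3
  have hw : (0 : ℝ) < 2 ^ (t + 14) := by positivity
  have hN : (0 : ℝ) ≤ (q : ℝ) ^ (2 * s + 1) := by positivity
  have hy : 0 ≤ (2 * u) ^ live ρ := by positivity
  generalize (2 : ℝ) ^ (t + 14) = w at hw h3
  generalize (q : ℝ) ^ (2 * s + 1) = N at hN h1 h2 h3
  generalize (2 * u) ^ live ρ = y at hy h1
  refine (mul_le_mul_of_nonneg_right h1 hw.le).trans ?_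
  have h4 : y * β * w ≤ N * (y * w) := by nlinarith [mul_nonneg hy hw.le]
  have h5 : 0 ≤ N * (y * w) := by positivity
  have h6 : 0 ≤ N * y := by positivity
  split_ifs with ha hb hb
  · nlinarith
  · nlinarith
  · nlinarith
  · have := mul_le_mul_of_nonneg_left (h3 (by omega) (by omega)) hy
    nlinarith

lemma Av_sum {t M b s q : ℕ} [Fact q.Prime] (hP : Par n t M b s q) :
    (∑ p : ZMod q × (Fin (2 * s) → ZMod q),
      ∑ ρ : Res n, ((M : ℝ) / n) ^ live ρ * Av_cf b (gs p.1 p.2) ρ) * 2 ^ (t + 14) ≤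
      (q : ℝ) ^ (2 * s + 1) * (5 * (2 + 2 * ((M : ℝ) / n)) ^ n) := by
  have hu : (0 : ℝ) ≤ (M : ℝ) / n := by positivity
  rw [sum_comm, sum_mul]
  refine (sum_le_sum fun ρ _ => Av_rho hP hu ρ).trans ?_
  rw [← mul_sum]
  refine mul_le_mul_of_nonneg_left ?_ (by positivity)
  rw [sum_add_distrib, sum_add_distrib, sum_add_distrib, ← sum_mul, ← sum_mul, ← sum_mul,
    ← mul_sum, sum_pow_live, sum_pow_live, ← sum_filter, ← sum_filter]
  have h1 := tail_good hP.hM hP.hMn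
  have h2 := tail_low hP.hM hP.hMn
  have h3 := tail_high hP.hM hP.hMn
  linarith

lemma Av_zero (q s : ℕ) [Fact q.Prime] (hs : 1 ≤ s) :
    2 * ∑ p : ZMod q × (Fin (2 * s) → ZMod q),
      (univ.filter fun x : Pt n => pv p.2 (hsh p.1 x) = 0).card ≤ q ^ (2 * s + 1) * 2 ^ n := by
  rw [Fintype.sum_prod_type]
  simp only [card_filter]
  have h1 : ∀ a : ZMod q, 2 * ∑ c : Fin (2 * s) → ZMod q, ∑ x : Pt n,
      (if pv c (hsh a x) = 0 then 1 else 0) ≤ q ^ (2 * s) * 2 ^ n := by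
    intro a
    rw [sum_comm, mul_sum]
    have := sum_le_card_nsmul (univ : Finset (Pt n))
      (fun x => 2 * ∑ c : Fin (2 * s) → ZMod q, if pv c (hsh a x) = 0 then 1 else 0)
      (q ^ (2 * s)) fun x _ => by
        rw [← card_filter]
        exact zero_half (by omega) _
    simpa [mul_comm] using this
  rw [mul_sum]
  have := sum_le_card_nsmul (univ : Finset (ZMod q)) _ _ fun a _ => h1 a
  rw [card_univ, ZMod.card, smul_eq_mul] at this
  refine this.trans (le_of_eq ?_)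
  ring

/-- For a seed `p` put `cf p ρ = if Good b ρ (gs p.1 p.2) then (15 / 8) ^ live ρ else 2 ^ live ρ`
(`card_cube`, `abs_gs_le`) and `X p = ∑ ρ, u ^ live ρ * cf p ρ`, `Z = (2 + 2 u) ^ n`. The average
of `X` is at most `5 Z / 2 ^ (t + 14)` (`tail_good`, `tail_low`, `tail_high`, `seed_bad`,
`sum_pow_live`), the average number of zeros at most `2 ^ n / 2` (`zero_half`). Take a seed where
`X p * 2 ^ (t + 14) / (20 Z) + zeros p / 2 ^ n` is at most its average `3 / 4`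
(`Finset.exists_le_of_sum_le`). -/
lemma exists_seed {t M b s q : ℕ} [Fact q.Prime] (hP : Par n t M b s q) :
    ∃ (a : ZMod q) (c : Fin (2 * s) → ZMod q) (cf : Res n → ℝ),
      (∀ ρ B, IsTest b ρ B → |∑ x ∈ B, gs a c x| ≤ cf ρ) ∧
      (∑ ρ : Res n, ((M : ℝ) / n) ^ live ρ * cf ρ) * 2 ^ (t + 9) ≤
        (1 + (M : ℝ) / n) ^ n * 2 ^ n ∧
      4 * (univ.filter fun x : Pt n => pv c (hsh a x) = 0).card ≤ 3 * 2 ^ n := by
  have hu : (0 : ℝ) ≤ (M : ℝ) / n := by positivity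
  have h1 := Av_sum hP
  have h2 : (2 : ℝ) * ∑ p : ZMod q × (Fin (2 * s) → ZMod q),
      ((univ.filter fun x : Pt n => pv p.2 (hsh p.1 x) = 0).card : ℝ) ≤
      (q : ℝ) ^ (2 * s + 1) * 2 ^ n := by
    exact_mod_cast Av_zero (n := n) q s (by have := hP.hs; omega)
  have hZ : (2 + 2 * ((M : ℝ) / n)) ^ n = (1 + (M : ℝ) / n) ^ n * 2 ^ n := by
    rw [← mul_pow]
    congr 1
    ring
  rw [hZ] at h1
  have hZ0 : 0 < (1 + (M : ℝ) / n) ^ n * 2 ^ n := by positivity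
  generalize (1 + (M : ℝ) / n) ^ n * 2 ^ n = Z at h1 hZ0
  have h2n : (0 : ℝ) < 2 ^ n := by positivity
  obtain ⟨p, -, hp⟩ := exists_le_of_sum_le (s := univ)
    (f := fun p : ZMod q × (Fin (2 * s) → ZMod q) =>
      (∑ ρ : Res n, ((M : ℝ) / n) ^ live ρ * Av_cf b (gs p.1 p.2) ρ) * 2 ^ (t + 14) * 2 ^ n +
        20 * Z * ((univ.filter fun x : Pt n => pv p.2 (hsh p.1 x) = 0).card : ℝ))
    (g := fun _ => 15 * Z * 2 ^ n) univ_nonempty (by
      rw [sum_add_distrib, ← sum_mul, ← sum_mul, ← mul_sum, sum_const, card_univ, Av_card,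
        nsmul_eq_mul]
      push_cast
      nlinarith [mul_le_mul_of_nonneg_right h1 h2n.le, mul_le_mul_of_nonneg_left h2 hZ0.le])
  have hX : 0 ≤ ∑ ρ : Res n, ((M : ℝ) / n) ^ live ρ * Av_cf b (gs p.1 p.2) ρ :=
    sum_nonneg fun ρ _ => mul_nonneg (by positivity) (Av_cf_nonneg _ _ _)
  have hc : (0 : ℝ) ≤ ((univ.filter fun x : Pt n => pv p.2 (hsh p.1 x) = 0).card : ℝ) :=
    Nat.cast_nonneg _
  refine ⟨p.1, p.2, Av_cf b (gs p.1 p.2), Av_test (abs_gs_le _ _), ?_, ?_⟩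
  · have e : (2 : ℝ) ^ (t + 14) = 2 ^ (t + 9) * 32 := by ring
    rw [e] at hp
    refine le_of_mul_le_mul_right ?_ h2n
    nlinarith [mul_nonneg hZ0.le hc, mul_pos hZ0 h2n]
  · have h3 : (4 : ℝ) * ((univ.filter fun x : Pt n => pv p.2 (hsh p.1 x) = 0).card : ℝ) ≤
        3 * 2 ^ n := by
      refine le_of_mul_le_mul_left ?_ hZ0
      have : 0 ≤ (∑ ρ : Res n, ((M : ℝ) / n) ^ live ρ * Av_cf b (gs p.1 p.2) ρ) *
        2 ^ (t + 14) * 2 ^ n := by positivity
      nlinarith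
    exact_mod_cast h3

end Vale.Agent.P336
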