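import Vale.Agent.P336.Defs

/-!
Points, forbidden patterns, restrictions, narrow tests and the seeded sign function.
-/

namespace Vale.Agent.P336

open Finset

/-- Points of the cube. -/
abbrev Pt (n : ℕ) := Fin n → Bool

/-- Patterns: sets of literals `(i, b)`. -/
abbrev Pat (n : ℕ) := Finset (Fin n × Bool)

/-- Restrictions; `none` marks a live variable. -/
abbrev Res (n : ℕ) := Fin n → Option Bool

variable {n : ℕ}

/-- The point matches the pattern. -/
def Mat (x : Pt n) (τ : Pat n) : Prop := ∀ l ∈ τ, x l.1 = l.2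

instance (x : Pt n) (τ : Pat n) : Decidable (Mat x τ) := by unfold Mat; infer_instance

/-- The subcube of a restriction. -/
def cube (ρ : Res n) : Finset (Pt n) := univ.filter fun x => ∀ i b, ρ i = some b → x i = b

/-- The number of live variables. -/
def live (ρ : Res n) : ℕ := (univ.filter fun i => ρ i = none).card

/-- The literals on live variables. -/
def liveL (ρ : Res n) : Pat n := univ.filter fun l => ρ l.1 = none

/-- `B` is the solution set, inside the subcube, of a CNF of width at most `b` in the live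
variables. -/
def IsTest (b : ℕ) (ρ : Res n) (B : Finset (Pt n)) : Prop :=
  B ⊆ cube ρ ∧ ∀ x ∈ cube ρ, x ∉ B →
    ∃ κ, κ ⊆ liveL ρ ∧ κ.card ≤ b ∧ Mat x κ ∧ ∀ y ∈ B, ¬ Mat y κ

/-- The points that match none of the listed forbidden patterns. -/
def sol (H : List (Pat n)) : Finset (Pt n) := univ.filter fun x => ∀ τ ∈ H, ¬ Mat x τ

/-- Fix the variables of a pattern. -/
def fixp (ρ : Res n) (τ : Pat n) : Res n := fun i =>
  if (i, true) ∈ τ then some true else if (i, false) ∈ τ then some false else ρ i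

/-- The pattern number `i` is wide at `ρ` and is the first pattern matched by some point of the
subcube. -/
def Valid (H : List (Pat n)) (b : ℕ) (ρ : Res n) (i : ℕ) : Prop :=
  b < (H.getD i ∅ ∩ liveL ρ).card ∧
    ∃ x ∈ cube ρ, Mat x (H.getD i ∅) ∧ x ∈ sol (H.take i)

/-- The polynomial hash of a point. -/
def hsh {q : ℕ} (a : ZMod q) (x : Pt n) : ZMod q :=
  ∑ i : Fin n, (if x i = true then 1 else 0) * a ^ (i : ℕ)

/-- The value of the polynomial with coefficient vector `c`. -/
def pv {q s : ℕ} (c : Fin s → ZMod q) (y : ZMod q) : ZMod q := ∑ j, c j * y ^ (j : ℕ)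

/-- The sign of a residue: zero at zero, otherwise given by the parity. -/
def sg {q : ℕ} (v : ZMod q) : ℝ := if v = 0 then 0 else if v.val % 2 = 1 then 1 else -1

/-- The seeded sign function. -/
def gs {q s : ℕ} (a : ZMod q) (c : Fin s → ZMod q) (x : Pt n) : ℝ := sg (pv c (hsh a x))

/-- All narrow tests have small correlation with `g`. -/
def Good (b : ℕ) (ρ : Res n) (g : Pt n → ℝ) : Prop :=
  ∀ B, IsTest b ρ B → |∑ x ∈ B, g x| ≤ (15 / 8 : ℝ) ^ live ρ

/-- The numerical conditions on the parameters. -/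
structure Par (n t M b s q : ℕ) : Prop where
  hM : 24 * (t + 14) ≤ M
  hMn : M ≤ n
  hb : 3 * M * (2 * t + 6) + n ≤ b * n
  prime : q.Prime
  three : 3 ≤ q
  hq : 16 ^ M * n * 2 ^ (t + 14) ≤ q
  hqs : q ^ (2 * s) ≤ 2 ^ n
  hs : 30 + 10 * (Nat.log 2 n + 2) * b * 1024 ^ b ≤ s
  hL : 20 * (Nat.log 2 n + 1) ≤ t + 14

lemma mem_cube {ρ : Res n} {x : Pt n} : x ∈ cube ρ ↔ ∀ i b, ρ i = some b → x i = b := by
  simp [cube]

lemma mem_liveL {ρ : Res n} {l : Fin n × Bool} : l ∈ liveL ρ ↔ ρ l.1 = none := by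
  simp [liveL]

lemma mem_sol {H : List (Pat n)} {x : Pt n} : x ∈ sol H ↔ ∀ τ ∈ H, ¬ Mat x τ := by
  simp [sol]

lemma abs_sg_le {q : ℕ} (v : ZMod q) : |sg v| ≤ 1 := by
  unfold sg; split_ifs <;> simp

lemma abs_gs_le {q s : ℕ} (a : ZMod q) (c : Fin s → ZMod q) (x : Pt n) : |gs a c x| ≤ 1 :=
  abs_sg_le _

end Vale.Agent.P336
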