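import Vale.Agent.P336.Basic

/-!
Fixing the seed inputs of a circuit.
-/

namespace Vale.Agent.P336

open Finset

variable {n : ℕ}

/-- The input with data bits `x` followed by the bits of `σ`. -/
def emb (N : ℕ) (x : Pt n) (σ : ℕ → Bool) : Fin N → Bool :=
  fun i => if h : (i : ℕ) < n then x ⟨i, h⟩ else σ i

/-- Trivial bottom gates. -/
def CiT {N : ℕ} (n : ℕ) (σ : ℕ → Bool) (g : Finset (Input N)) : Prop :=
  Sum.inr true ∈ g ∨ ∃ i : Fin N, ¬ (i : ℕ) < n ∧ Sum.inl (i, σ i) ∈ g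

open Classical in
/-- The forbidden pattern of a bottom gate. -/
noncomputable def CiP {N : ℕ} (n : ℕ) (g : Finset (Input N)) : Pat n :=
  univ.filter fun l => ∃ i : Fin N, (i : ℕ) = l.1 ∧ Sum.inl (i, !l.2) ∈ g

lemma Ci_gate {N : ℕ} (σ : ℕ → Bool) (g : Finset (Input N)) (x : Pt n) :
    (∃ l ∈ g, l.val (emb N x σ) = true) ↔ (¬ CiT n σ g → ¬ Mat x (CiP n g)) := by
  constructor
  · rintro ⟨⟨i, b⟩ | c, hl, h⟩ hT hM
    · have h1 : emb N x σ i = b := by simpa [Input.val] using h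
      by_cases hi : (i : ℕ) < n
      · have h2 := hM (⟨i, hi⟩, !b) (mem_filter.2 ⟨mem_univ _, i, rfl, by simpa using hl⟩)
        rw [emb, dif_pos hi, h2] at h1
        simp at h1
      · rw [emb, dif_neg hi] at h1
        exact hT (Or.inr ⟨i, hi, h1 ▸ hl⟩)
    · exact hT (Or.inl ((show c = true from h) ▸ hl))
  · intro h
    by_cases hT : CiT n σ g
    · rcases hT with h1 | ⟨i, hi, h1⟩
      · exact ⟨_, h1, rfl⟩
      · exact ⟨_, h1, by simp [Input.val, emb, hi]⟩
    · have h1 := h hT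
      simp only [Mat, not_forall] at h1
      obtain ⟨⟨j, b⟩, hl, h2⟩ := h1
      obtain ⟨i, hi, h3⟩ := (mem_filter.1 hl).2
      have h4 : (i : ℕ) < n := hi ▸ j.2
      refine ⟨_, h3, ?_⟩
      have h5 : (⟨i, h4⟩ : Fin n) = j := Fin.ext hi
      simpa [Input.val, emb, h4, h5] using Bool.eq_not_iff.2 h2

/-- A bottom gate is trivial if it reads the constant true or a literal `(i, b)` with `n ≤ i` and
`σ i = b`. A nontrivial gate is false exactly when `x` matches the pattern
`univ.filter fun l => ∃ i : Fin N, (i : ℕ) = l.1 ∧ Sum.inl (i, !l.2) ∈ C.bottom k`. Take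
`Hs j = ((C.middle j).filter nontrivial).toList.map pattern`. -/
lemma circuit_cnf {N : ℕ} (C : Circuit N) (σ : ℕ → Bool) :
    ∃ Hs : Fin C.nm → List (Pat n), (∀ j, (Hs j).length ≤ C.nb) ∧
      ∀ x : Pt n, C.Accepts (emb N x σ) ↔ ∃ j ∈ C.top, x ∈ sol (Hs j) := by
  classical
  refine ⟨fun j => ((C.middle j).filter fun k => ¬ CiT n σ (C.bottom k)).toList.map
    fun k => CiP n (C.bottom k), fun j => ?_, fun x => ?_⟩
  · rw [List.length_map, length_toList]
    exact (card_le_univ _).trans_eq (Fintype.card_fin _)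
  · simp only [Circuit.Accepts, Ci_gate, mem_sol, List.forall_mem_map, mem_toList, mem_filter,
      and_imp]

end Vale.Agent.P336
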