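import Mathlib

/-!
Statement-level definitions: depth-three OR-AND-OR circuits and languages in polynomial time.
-/

namespace Vale.Agent.P336

/-- An input of a bottom gate: a literal `(i, b)`, true when `x i = b`, or a constant. -/
abbrev Input (n : ℕ) := (Fin n × Bool) ⊕ Bool

/-- The value of a literal or constant. -/
def Input.val {n : ℕ} (x : Fin n → Bool) : Input n → Bool
  | .inl l => x l.1 == l.2
  | .inr c => c

/-- A depth-three OR-AND-OR circuit: `nb` bottom OR gates reading literals and constants, `nm`
middle AND gates reading bottom gates, and one top OR gate reading middle gates. -/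
structure Circuit (n : ℕ) where
  /-- number of bottom gates -/
  nb : ℕ
  /-- number of middle gates -/
  nm : ℕ
  /-- inputs of each bottom OR gate -/
  bottom : Fin nb → Finset (Input n)
  /-- inputs of each middle AND gate -/
  middle : Fin nm → Finset (Fin nb)
  /-- inputs of the top OR gate -/
  top : Finset (Fin nm)

/-- The circuit outputs 1 on `x`. -/
def Circuit.Accepts {n : ℕ} (C : Circuit n) (x : Fin n → Bool) : Prop :=
  ∃ j ∈ C.top, ∀ i ∈ C.middle j, ∃ l ∈ C.bottom i, l.val x = true

/-- The total number of gates. -/
def Circuit.size {n : ℕ} (C : Circuit n) : ℕ := C.nb + C.nm + 1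

/-- `L` is decided in polynomial time by a deterministic multi-stack Turing machine with finite
alphabets that reads the input bit string itself. -/
def InP (L : Set (List Bool)) : Prop :=
  ∃ f : List Bool → List Bool, (∃ M : Turing.TM2ComputableInPolyTime id id f,
    ∀ k, Finite (M.tm.Γ k)) ∧ ∀ w, w ∈ L ↔ f w = [true]

end Vale.Agent.P336
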