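import Vale.Agent.P336.MaD

/-!
The language is in polynomial time.
-/

namespace Vale.Agent.P336

open Finset

variable {n : ℕ}

open Vale.Agent.Lib.TM Vale.Agent.Lib.PCP

lemma maA_blk (j : ℕ) : CT 0 fun w : List Bool => blk w j := by
  have h1 : CT 0 fun w : List Bool => List.range (w.length / 4) :=
    CT.range (by fun_prop) ((CT.id (e := 0)).bd_length.of_le fun w => Nat.div_le_self _ _)
  exact CT.map (f := fun (w : List Bool) (i : ℕ) => w.getD (j * (w.length / 4) + i) false)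
    (by fun_prop) h1

lemma maA_hash {α : Type} [Enc α] {q a : α → ℕ} {l : α → List Bool} (hq : CT 0 q) (ha : CT 0 a)
    (hl : CT 0 l) : CT 0 fun w => hashN (q w + 1) (a w) (l w) := by
  have h1 : CT 0 fun w => q w + 1 := by fun_prop
  refine CT.foldl_inv (g := fun w (s : ℕ) (b : Bool) => (s * a w + (bif b then 1 else 0)) % (q w + 1))
    (by fun_prop) (CT.const 0) hl.reverse h1.size (fun w s _ => s ≤ q w + 1)
    (fun _ => Nat.zero_le _) (fun w s x r _ => (Nat.mod_lt _ (Nat.succ_pos _)).le)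
    fun w s r h => sz_mono h

lemma maA_eval {α : Type} [Enc α] {q h C : α → ℕ} {l : α → List Bool} (hq : CT 0 q) (hh : CT 0 h)
    (hC : CT 0 C) (hl : CT 0 l) : CT 0 fun w => evalN (q w + 1) (h w) (C w) (l w) := by
  have h1 : CT 0 fun w => q w + 1 := by fun_prop
  refine CT.fst (CT.foldl_inv (g := fun w (st : ℕ × ℕ × ℕ) (_ : Bool) =>
      ((st.1 + st.2.2 % (q w + 1) * st.2.1) % (q w + 1), st.2.1 * h w % (q w + 1),
        st.2.2 / (q w + 1))) (init := fun w => (0, 1, C w))
    (by fun_prop) (by fun_prop) hl (((h1.size.add h1.size).add hC.size).add (Bd.const 2))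
    (fun w s _ => s.1 ≤ q w + 1 ∧ s.2.1 ≤ q w + 1 ∧ s.2.2 ≤ C w)
    (fun _ => ⟨Nat.zero_le _, Nat.le_add_left _ _, le_rfl⟩)
    (fun w s x r hs => ⟨(Nat.mod_lt _ (Nat.succ_pos _)).le, (Nat.mod_lt _ (Nat.succ_pos _)).le,
      (Nat.div_le_self _ _).trans hs.2.2⟩) fun w s r hs => ?_)
  have k1 := sz_mono hs.1
  have k2 := sz_mono hs.2.1
  have k3 := sz_mono hs.2.2
  rw [sz_prod s, sz_prod s.2]
  omega

/-- Library `Vale.Agent.Lib.CT` (`fun_prop`, `CT.range` with `CT.bd_length`, `CT.map`, `CT.getD`,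
`ct_ofBits`, `CT.foldl_inv`). Invariants: the state of `hashN` is at most `q`; in `evalN` the first
two components are at most `q` (here `q ≥ 1`), the third at most `C`; use `sz_mono`, `sz_prod`. -/
theorem ct_fL : CT 0 fL := by
  have h1 := ct_ofBits (maA_blk 1)
  exact ((maA_eval h1 (maA_hash h1 (ct_ofBits (maA_blk 2)) (maA_blk 0)) (ct_ofBits (maA_blk 3))
    (maA_blk 0)).mod (CT.const 2)).beq (CT.const 1)

/-- From `ct_fL` and `Vale.Agent.P337.polyTime_of_CT` applied to `fun w => [fL w]`. -/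
theorem inP_fL : InP {w | fL w = true} :=
  ⟨fun w => [fL w], Vale.Agent.P337.polyTime_of_CT (ct_fL.cons (CT.const [])), fun w => by simp⟩

end Vale.Agent.P336
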