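import Vale.Agent.P336.MaD

/-!
Arithmetic meaning of the two loops.
-/

namespace Vale.Agent.P336

open Finset

variable {n : ℕ}

/-- Hint: `List.foldl_reverse`, induction on `n` with `List.ofFn_succ`, `Fin.sum_univ_succ`,
`ZMod.natCast_mod`. -/
lemma hashN_cast (q a : ℕ) (x : Pt n) :
    ((hashN q a (List.ofFn x) : ℕ) : ZMod q) = hsh (a : ZMod q) x := by
  rw [hashN, List.foldl_reverse, hsh]
  induction n with
  | zero => simp
  | succ n ih =>
    rw [List.ofFn_succ, List.foldr_cons, ZMod.natCast_mod, Fin.sum_univ_succ, Nat.cast_add,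
      Nat.cast_mul, ih, sum_mul, add_comm]
    congr 1
    · cases x 0 <;> simp
    · exact sum_congr rfl fun i _ => by rw [Fin.val_succ, pow_succ, mul_assoc]

/-- Hint: generalize the start state; induction on `l`. -/
lemma evalN_lt {q : ℕ} (hq : 0 < q) (h C : ℕ) (l : List Bool) : evalN q h C l < q := by
  have key : ∀ st : ℕ × ℕ × ℕ, st.1 < q → (l.foldl (fun (st : ℕ × ℕ × ℕ) (_ : Bool) =>
      ((st.1 + st.2.2 % q * st.2.1) % q, st.2.1 * h % q, st.2.2 / q)) st).1 < q := by
    induction l with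
    | nil => exact fun _ h => h
    | cons b l ih => exact fun st _ => ih _ (Nat.mod_lt _ hq)
  exact key _ hq

/-- Hint: generalize the start state `(A, P, C)`: the result is `A + P * ∑ ...`;
`Finset.sum_range_succ'`, `Nat.div_div_eq_div_mul`. -/
lemma evalN_cast (q h C : ℕ) (l : List Bool) :
    ((evalN q h C l : ℕ) : ZMod q) =
      ∑ j ∈ range l.length, ((C / q ^ j % q : ℕ) : ZMod q) * (h : ZMod q) ^ j := by
  have key : ∀ st : ℕ × ℕ × ℕ, (((l.foldl (fun (st : ℕ × ℕ × ℕ) (_ : Bool) =>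
      ((st.1 + st.2.2 % q * st.2.1) % q, st.2.1 * h % q, st.2.2 / q)) st).1 : ℕ) : ZMod q) =
      st.1 + st.2.1 * ∑ j ∈ range l.length,
        ((st.2.2 / q ^ j % q : ℕ) : ZMod q) * (h : ZMod q) ^ j := by
    induction l with
    | nil => simp
    | cons b l ih =>
      intro st
      rw [List.foldl_cons, ih, List.length_cons, sum_range_succ', ZMod.natCast_mod,
        ZMod.natCast_mod (st.2.1 * h), Nat.cast_add, Nat.cast_mul, Nat.cast_mul, pow_zero,
        Nat.div_one, pow_zero, mul_one, mul_add, mul_assoc, mul_sum, add_assoc, add_comm (_ * _),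
        mul_comm (st.2.1 : ZMod q) ((st.2.2 % q : ℕ) : ZMod q)]
      congr 3
      exact sum_congr rfl fun j _ => by
        rw [Nat.div_div_eq_div_mul, ← pow_succ', pow_succ' (h : ZMod q), mul_left_comm]
  simpa [evalN] using key (0, 1, C)

/-- Hint: `finFunctionFinEquiv` and `finFunctionFinEquiv_symm_apply_val`, or induction on `s`. -/
lemma exists_digits {q s : ℕ} [Fact q.Prime] (c : Fin s → ZMod q) :
    ∃ C < q ^ s, ∀ m, s ≤ m → ∀ y : ZMod q,
      ∑ j ∈ range m, ((C / q ^ j % q : ℕ) : ZMod q) * y ^ j = pv c y := by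
  have hq : q.Prime := Fact.out
  have : NeZero q := ⟨hq.ne_zero⟩
  set C := finFunctionFinEquiv fun j : Fin s => (⟨(c j).val, ZMod.val_lt _⟩ : Fin q) with hC
  refine ⟨C, C.2, fun m hm y => ?_⟩
  rw [← sum_subset (range_subset_range.2 hm) fun j _ hj => by
    rw [Nat.div_eq_of_lt (C.2.trans_le (Nat.pow_le_pow_right hq.pos (by simpa using hj)))]
    simp, sum_range, pv]
  refine sum_congr rfl fun j _ => ?_
  rw [← finFunctionFinEquiv_symm_apply_val, hC, Equiv.symm_apply_apply, ZMod.natCast_zmod_val]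

end Vale.Agent.P336
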