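import Vale.Agent.P336.MaB

/-!
The language on inputs with a fixed seed.
-/

namespace Vale.Agent.P336

open Finset

variable {n : ℕ}

open Vale.Agent.Lib.PCP

lemma MaC_getD {N : ℕ} (x : Pt n) (σ : ℕ → Bool) {i : ℕ} (hi : i < N) :
    (List.ofFn (emb N x σ)).getD i false = if h : i < n then x ⟨i, h⟩ else σ i := by
  rw [List.getD_eq_getElem _ _ (by simpa using hi), List.getElem_ofFn]
  rfl

lemma MaC_blk {N : ℕ} (hN : N / 4 = n) (x : Pt n) (σ : ℕ → Bool) {j : ℕ} (h1 : 1 ≤ j)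
    (h3 : j ≤ 3) {A : ℕ} (hA : A < 2 ^ n) (h : ∀ i < n, σ (j * n + i) = A.testBit i) :
    ofBits (blk (List.ofFn (emb N x σ)) j) = A := by
  refine Nat.eq_of_testBit_eq fun i => ?_
  rw [testBit_ofBits, blk, List.length_ofFn, hN]
  rcases lt_or_ge i n with hi | hi
  · have h4 : j * n ≤ 3 * n := Nat.mul_le_mul_right n h3
    have h5 : 1 * n ≤ j * n := Nat.mul_le_mul_right n h1
    rw [List.getD_eq_getElem _ _ (by simpa using hi), List.getElem_map, List.getElem_range,
      MaC_getD x σ (by omega), dif_neg (by omega), h i hi]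
  · rw [List.getD_eq_default _ _ (by simpa using hi),
      Nat.testBit_lt_two_pow (hA.trans_le (Nat.pow_le_pow_right two_pos hi))]

lemma blk_zero {N : ℕ} (hN : N / 4 = n) (x : Pt n) (σ : ℕ → Bool) :
    blk (List.ofFn (emb N x σ)) 0 = List.ofFn x := by
  refine List.ext_getElem (by simp [blk, hN]) fun i h1 h2 => ?_
  have hi : i < n := by simpa using h2
  simp only [blk, List.length_ofFn, hN, List.getElem_map, List.getElem_range, zero_mul, zero_add,
    List.getElem_ofFn]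
  rw [MaC_getD x σ (by omega), dif_pos hi]

/-- Take `σ i = if i < 2 n then A.testBit (i - n) else if i < 3 n then B.testBit (i - 2 n) else
C.testBit (i - 3 n)`; `Nat.eq_of_testBit_eq`, `testBit_ofBits`, `Nat.testBit_lt_two_pow`. -/
lemma exists_blocks {N : ℕ} (hN : N / 4 = n) {A B C : ℕ} (hA : A < 2 ^ n) (hB : B < 2 ^ n)
    (hC : C < 2 ^ n) : ∃ σ : ℕ → Bool, ∀ x : Pt n,
      ofBits (blk (List.ofFn (emb N x σ)) 1) = A ∧ ofBits (blk (List.ofFn (emb N x σ)) 2) = B ∧
        ofBits (blk (List.ofFn (emb N x σ)) 3) = C := by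
  refine ⟨fun i => if i < 2 * n then A.testBit (i - n) else if i < 3 * n then
    B.testBit (i - 2 * n) else C.testBit (i - 3 * n), fun x => ⟨?_, ?_, ?_⟩⟩
  · refine MaC_blk hN x _ le_rfl (by norm_num) hA fun i hi => ?_
    rw [if_pos (by omega)]
    congr 1
    omega
  · refine MaC_blk hN x _ (by norm_num) (by norm_num) hB fun i hi => ?_
    rw [if_neg (by omega), if_pos (by omega), Nat.add_sub_cancel_left]
  · refine MaC_blk hN x _ (by norm_num) le_rfl hC fun i hi => ?_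
    rw [if_neg (by omega), if_neg (by omega), Nat.add_sub_cancel_left]

/-- Use `A = q - 1`, `B = a.val`, `C` from `exists_digits`; `s ≤ n` and `q ≤ 2 ^ n` follow from
`hqs`; `ZMod.val_natCast`, `evalN_lt`, `evalN_cast`, `hashN_cast`. -/
theorem fL_spec {N q s : ℕ} [Fact q.Prime] (hN : N / 4 = n) (hs : 1 ≤ s) (hqs : q ^ s ≤ 2 ^ n)
    (a : ZMod q) (c : Fin s → ZMod q) : ∃ σ : ℕ → Bool, ∀ x : Pt n,
      fL (List.ofFn (emb N x σ)) = true ↔ (pv c (hsh a x)).val % 2 = 1 := by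
  have hq : 2 ≤ q := (Fact.out : q.Prime).two_le
  have h1 : q ≤ 2 ^ n := (Nat.le_self_pow (by omega) q).trans hqs
  have h2 : s ≤ n :=
    (Nat.pow_le_pow_iff_right one_lt_two).1 ((Nat.pow_le_pow_left hq s).trans hqs)
  obtain ⟨C, hC, h3⟩ := exists_digits c
  obtain ⟨σ, hσ⟩ := exists_blocks hN (A := q - 1) (B := a.val) (C := C) (by omega)
    ((ZMod.val_lt a).trans_le h1) (hC.trans_le hqs)
  refine ⟨σ, fun x => ?_⟩
  obtain ⟨e1, e2, e3⟩ := hσ x
  rw [fL, e1, e2, e3, blk_zero hN, Nat.sub_add_cancel (by omega), Nat.beq_eq]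
  have h4 := evalN_cast q (hashN q a.val (List.ofFn x)) C (List.ofFn x)
  rw [List.length_ofFn, h3 n h2, hashN_cast, ZMod.natCast_zmod_val] at h4
  rw [← h4, ZMod.val_natCast, Nat.mod_eq_of_lt (evalN_lt (by omega) _ _ _)]

end Vale.Agent.P336
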