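import Vale.Agent.P336.Ci
import Vale.Agent.Lib.PCP.Base
import Vale.Agent.P337.Raw

/-!
The hard language as a function on bit strings.
-/

namespace Vale.Agent.P336

open Vale.Agent.Lib.PCP

/-- Block number `j` of the four blocks of the input. -/
def blk (w : List Bool) (j : ℕ) : List Bool :=
  (List.range (w.length / 4)).map fun i => w.getD (j * (w.length / 4) + i) false

/-- The polynomial with the bits of `l` as coefficients, at `a`, modulo `q`. -/
def hashN (q a : ℕ) (l : List Bool) : ℕ :=
  l.reverse.foldl (fun s b => (s * a + (bif b then 1 else 0)) % q) 0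

/-- The polynomial with the first `l.length` base `q` digits of `C` as coefficients, at `h`, modulo
`q`. -/
def evalN (q h C : ℕ) (l : List Bool) : ℕ :=
  (l.foldl (fun (st : ℕ × ℕ × ℕ) (_ : Bool) =>
    ((st.1 + st.2.2 % q * st.2.1) % q, st.2.1 * h % q, st.2.2 / q)) (0, 1, C)).1

/-- The membership function of the language. -/
def fL (w : List Bool) : Bool :=
  Nat.beq (evalN (ofBits (blk w 1) + 1) (hashN (ofBits (blk w 1) + 1) (ofBits (blk w 2)) (blk w 0))
    (ofBits (blk w 3)) (blk w 0) % 2) 1

end Vale.Agent.P336
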