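import Vale.Agent.P336.Basic

/-!
Choice of the parameters.
-/

namespace Vale.Agent.P336

open Finset

variable {n : ℕ}

lemma Pa_pow {j : ℕ} (hj : 8 ≤ j) : 20 * (j + 1) ≤ 2 ^ j := by
  induction j, hj using Nat.le_induction with
  | base => norm_num
  | succ j _ ih =>
    rw [pow_succ]
    omega

lemma Pa_log {L : ℕ} (hL : 400 ≤ L) : L ≤ 2 ^ (L / 20) :=
  le_trans (by omega) (Pa_pow (j := L / 20) (by omega))

lemma Pa_sq {L : ℕ} (hL : 400 ≤ L) : (2000 * (L + 1)) ^ 2 ≤ 2 ^ L * L := by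
  have h1 : (2000 * (L + 1)) ^ 2 ≤ 2 ^ 24 * L * L := by nlinarith
  refine h1.trans (Nat.mul_le_mul_right _ ((Nat.mul_le_mul_left _ (Pa_log hL)).trans ?_))
  rw [← pow_add]
  exact Nat.pow_le_pow_right two_pos (by omega)

lemma Pa_s {L b : ℕ} (hL : 400 ≤ L) (hb : b ≤ L / 56 + 2) :
    16 * (30 + 10 * (L + 2) * b * 1024 ^ b) ^ 2 * L ≤ 2 ^ L := by
  have h1 : 1024 ^ b ≤ 2 ^ (L / 5 + 20) := by
    rw [show 1024 = 2 ^ 10 from rfl, ← pow_mul]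
    exact Nat.pow_le_pow_right two_pos (by omega)
  have h2 : 10 * (L + 2) * b + 30 ≤ L ^ 2 := by
    have : 20 * b ≤ L := by omega
    nlinarith
  have h3 : 1 ≤ 2 ^ (L / 5 + 20) := Nat.one_le_two_pow
  have h4 : 30 + 10 * (L + 2) * b * 1024 ^ b ≤ L ^ 2 * 2 ^ (L / 5 + 20) := by
    refine le_trans ?_ (Nat.mul_le_mul_right _ h2)
    rw [add_mul (10 * (L + 2) * b), add_comm]
    exact Nat.add_le_add (Nat.mul_le_mul_left _ h1) (Nat.le_mul_of_pos_right _ h3)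
  calc 16 * (30 + 10 * (L + 2) * b * 1024 ^ b) ^ 2 * L
      ≤ 16 * (L ^ 2 * 2 ^ (L / 5 + 20)) ^ 2 * L :=
        Nat.mul_le_mul_right _ (Nat.mul_le_mul_left _ (Nat.pow_le_pow_left h4 2))
    _ = 2 ^ 4 * L ^ 5 * (2 ^ (L / 5 + 20)) ^ 2 := by ring
    _ ≤ 2 ^ 4 * (2 ^ (L / 20)) ^ 5 * (2 ^ (L / 5 + 20)) ^ 2 :=
        Nat.mul_le_mul_right _ (Nat.mul_le_mul_left _ (Nat.pow_le_pow_left (Pa_log hL) 5))
    _ ≤ 2 ^ L := by
        rw [← pow_mul, ← pow_mul, ← pow_add, ← pow_add]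
        exact Nat.pow_le_pow_right two_pos (by omega)

lemma Pa_main {n L S t : ℕ} (hL : 400 ≤ L) (h1 : 2 ^ L ≤ n) (h2 : n ≤ 2 ^ (L + 1))
    (hS : S ^ 2 ≤ n * L) (hS' : 2000 * (L + 1) ≤ S) (ht : t = S / 100) (eL : Nat.log 2 n = L) :
    ∃ M b s q : ℕ, Par n t M b s q := by
  have hn : 0 < n := Nat.two_pow_pos L |>.trans_le h1
  have hLn : L ≤ n := Nat.lt_two_pow_self.le.trans h1
  have hSn : S ≤ n := by
    refine (Nat.pow_le_pow_iff_left two_ne_zero).1 (hS.trans ?_)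
    rw [sq]
    exact Nat.mul_le_mul_left _ hLn
  have h90 : 90 * (t + 14) ≤ S := by omega
  have hA : 56 * (3 * (24 * (t + 14)) * (2 * t + 6)) ≤ n * L := by
    refine le_trans ?_ ((Nat.pow_le_pow_left h90 2).trans hS)
    nlinarith
  have hb : 3 * (24 * (t + 14)) * (2 * t + 6) / n ≤ L / 56 := by
    rw [Nat.le_div_iff_mul_le (by norm_num)]
    refine Nat.le_of_mul_le_mul_left ?_ hn
    rw [← mul_assoc, mul_comm _ 56]
    exact (Nat.mul_le_mul_left 56 (Nat.mul_div_le _ n)).trans hA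
  obtain ⟨l, hl⟩ : ∃ l, l = 4 * (24 * (t + 14)) + (L + 1) + (t + 14) := ⟨_, rfl⟩
  obtain ⟨q, hq, hq1, hq2⟩ := Nat.exists_prime_lt_and_le_two_mul (2 ^ l) (by positivity)
  set b := 3 * (24 * (t + 14)) * (2 * t + 6) / n + 2 with hbd
  set s := 30 + 10 * (L + 2) * b * 1024 ^ b with hsd
  have hs : 16 * s ^ 2 * L ≤ n := (Pa_s hL (Nat.add_le_add_right hb 2)).trans h1
  have h4 : 4 * s * S ≤ n := by
    refine (Nat.pow_le_pow_iff_left two_ne_zero).1 ?_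
    calc (4 * s * S) ^ 2 = 16 * s ^ 2 * S ^ 2 := by ring
      _ ≤ 16 * s ^ 2 * (n * L) := Nat.mul_le_mul_left _ hS
      _ = 16 * s ^ 2 * L * n := by ring
      _ ≤ n ^ 2 := by
        rw [sq n]
        exact Nat.mul_le_mul_right _ hs
  refine ⟨24 * (t + 14), b, s, q, le_rfl, by omega, ?_, hq, ?_, ?_, ?_, by rw [eL], by omega⟩
  · rw [hbd, add_mul _ 2 n, two_mul n, ← add_assoc]
    exact Nat.add_le_add_right (Nat.lt_div_mul_add hn).le n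
  · have : 2 ^ 1 ≤ 2 ^ l := Nat.pow_le_pow_right two_pos (by omega)
    omega
  · refine le_trans ?_ hq1.le
    rw [hl, pow_add 2 _ (t + 14), pow_add 2 _ (L + 1), pow_mul 2 4,
      show 2 ^ 4 = 16 from rfl]
    exact Nat.mul_le_mul_right _ (Nat.mul_le_mul_left _ h2)
  · rw [← pow_succ'] at hq2
    refine (Nat.pow_le_pow_left hq2 _).trans ?_
    rw [← pow_mul]
    refine Nat.pow_le_pow_right two_pos (le_trans ?_ h4)
    have : l + 1 ≤ 2 * S := by omega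
    exact (Nat.mul_le_mul_right _ this).trans_eq (by ring)

/-- `L = Nat.log 2 n`, `S = Nat.sqrt (n * L)`, `t = S / 100`, `τ = t + 14`, `M = 24 τ`,
`b = 3 * M * (2 * t + 6) / n + 2`, `s = 30 + 10 * (L + 2) * b * 1024 ^ b`,
`l = 4 * M + (L + 1) + τ`, `q` a prime with `2 ^ l < q ≤ 2 ^ (l + 1)`
(`Nat.exists_prime_lt_and_le_two_mul`). For large `n` (say `L ≥ 400`): `90 τ ≤ S`, so
`56 * (144 τ ^ 2) ≤ n L` and `b ≤ L / 56 + 2`, `1024 ^ b ≤ 2 ^ (L / 5 + 20)`; `l + 1 ≤ 98 τ ≤ 2 S`;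
`2 s (l + 1) ≤ 4 s S ≤ n` follows from `16 s ^ 2 L ≤ 2 ^ L ≤ n` and `S ^ 2 ≤ n L`. -/
lemma exists_par : ∃ n₀ : ℕ, ∀ n ≥ n₀, ∃ M b s q : ℕ,
    Par n (Nat.sqrt (n * Nat.log 2 n) / 100) M b s q := by
  obtain ⟨c, hc⟩ : ∃ c : ℕ, 400 ≤ c := ⟨400, le_rfl⟩
  refine ⟨2 ^ c, fun n hn => ?_⟩
  have hn0 : n ≠ 0 := ((Nat.two_pow_pos c).trans_le hn).ne'
  have hL : 400 ≤ Nat.log 2 n := hc.trans (Nat.le_log_of_pow_le one_lt_two hn)
  have h1 : 2 ^ Nat.log 2 n ≤ n := Nat.pow_log_le_self 2 hn0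
  exact Pa_main hL h1 (Nat.lt_pow_succ_log_self one_lt_two n).le (Nat.sqrt_le' _)
    (Nat.le_sqrt'.2 ((Pa_sq hL).trans (Nat.mul_le_mul_right _ h1))) rfl rfl

end Vale.Agent.P336
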