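import Vale.Agent.P336.Basic

/-!
Comparison of the exponents.
-/

namespace Vale.Agent.P336

open Finset

variable {n : ℕ}

/-- With `n = N / 4`, `L = Nat.log 2 n`, `S = Nat.sqrt (n * L)`: `N ≤ 5 n`, `log N ≤ L` for
`L ≥ 10` (`N ≤ 5 * 2 ^ (L + 1)`, `Real.log_two_lt_d9`), so the root is at most `3 (S + 1)`. -/
lemma final_num : ∃ N₀ : ℕ, ∀ N ≥ N₀, (1 / 1000 : ℝ) * √((N : ℝ) * Real.log N) ≤
    ((Nat.sqrt (N / 4 * Nat.log 2 (N / 4)) / 100 : ℕ) : ℝ) := by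
  refine ⟨4096, fun N hN => ?_⟩
  obtain ⟨n, hn⟩ : ∃ n, N / 4 = n := ⟨_, rfl⟩
  rw [hn]
  have h1 : 10 ≤ Nat.log 2 n := Nat.le_log_of_pow_le one_lt_two (by omega)
  have h2 := Nat.lt_pow_succ_log_self one_lt_two n
  obtain ⟨L, hL⟩ : ∃ L, Nat.log 2 n = L := ⟨_, rfl⟩
  rw [hL] at h1 h2 ⊢
  have h3 : N ≤ 2 ^ (L + 4) := by
    have e : 2 ^ (L + 4) = 8 * 2 ^ L.succ := by rw [Nat.succ_eq_add_one]; ring
    omega
  have hN0 : (0 : ℝ) < N := by exact_mod_cast (by omega : 0 < N)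
  have h4 : Real.log N ≤ L := by
    have h5 := Real.log_le_log hN0 (show (N : ℝ) ≤ 2 ^ (L + 4) by exact_mod_cast h3)
    have h6 : (10 : ℝ) ≤ L := by exact_mod_cast h1
    have h7 := mul_le_mul_of_nonneg_left Real.log_two_lt_d9.le
      (Nat.cast_nonneg (L + 4) : (0 : ℝ) ≤ _)
    rw [Real.log_pow] at h5
    push_cast at h5 h7
    linarith
  have h8 : 100 ≤ Nat.sqrt (n * L) :=
    Nat.le_sqrt.2 (le_trans (by norm_num) (Nat.mul_le_mul (show 1024 ≤ n by omega) h1))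
  have h9 := Nat.lt_succ_sqrt (n * L)
  obtain ⟨S, hS⟩ : ∃ S, Nat.sqrt (n * L) = S := ⟨_, rfl⟩
  rw [hS] at h8 h9 ⊢
  have h10 : N * L ≤ (1000 * (S / 100)) ^ 2 := by
    have a1 : N * L ≤ 5 * n * L := Nat.mul_le_mul_right _ (by omega)
    have a2 : (3 * S.succ) ^ 2 ≤ (1000 * (S / 100)) ^ 2 := Nat.pow_le_pow_left (by omega) 2
    have a3 : (3 * S.succ) ^ 2 = 9 * (S.succ * S.succ) := by ring
    rw [mul_assoc] at a1
    omega
  have h11 : √((N : ℝ) * Real.log N) ≤ 1000 * ((S / 100 : ℕ) : ℝ) := by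
    refine Real.sqrt_le_iff.2 ⟨by positivity, (mul_le_mul_of_nonneg_left h4 hN0.le).trans ?_⟩
    exact_mod_cast h10
  linarith

/-- `log N` tends to infinity. -/
lemma omega_num (A : ℝ) : ∃ N₀ : ℕ, ∀ N ≥ N₀,
    A * √(N : ℝ) ≤ (1 / 1000 : ℝ) * √((N : ℝ) * Real.log N) := by
  obtain ⟨N₀, h⟩ := Filter.eventually_atTop.1 ((Real.tendsto_log_atTop.comp
    tendsto_natCast_atTop_atTop).eventually_ge_atTop ((1000 * A) ^ 2))
  refine ⟨N₀, fun N hN => ?_⟩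
  have h1 : 1000 * A ≤ √(Real.log N) := Real.le_sqrt_of_sq_le (h N hN)
  have h2 := mul_le_mul_of_nonneg_left h1 (Real.sqrt_nonneg N)
  rw [Real.sqrt_mul (Nat.cast_nonneg N)]
  linarith

end Vale.Agent.P336
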