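import Vale.Agent.P336.Tr
import Vale.Agent.P336.MaA
import Vale.Agent.P336.MaC
import Vale.Agent.P336.Pa
import Vale.Agent.P336.PaB

/-!
The lower bound.
-/

namespace Vale.Agent.P336

theorem lower : ∃ n₀ : ℕ, ∀ n ≥ n₀, ∀ C : Circuit n,
    (∀ x, C.Accepts x ↔ List.ofFn x ∈ {w | fL w = true}) →
      (2 : ℝ) ^ ((1 / 1000 : ℝ) * √((n : ℝ) * Real.log n)) ≤ C.size := by
  obtain ⟨n₀, h₀⟩ := exists_par
  obtain ⟨N₀, h₁⟩ := final_num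
  refine ⟨max (4 * n₀) N₀, fun N hN C hC => ?_⟩
  obtain ⟨M, b, s, q, hP⟩ := h₀ (N / 4) (by have := le_of_max_le_left hN; omega)
  haveI : Fact q.Prime := ⟨hP.prime⟩
  set t := Nat.sqrt (N / 4 * Nat.log 2 (N / 4)) / 100 with ht
  obtain ⟨a, c, hcore⟩ := core hP
  have hs : 1 ≤ 2 * s := by have := hP.hs; omega
  obtain ⟨σ, hσ⟩ := fL_spec (N := N) rfl hs hP.hqs a c
  obtain ⟨Hs, h1, h2⟩ := circuit_cnf (n := N / 4) C σ
  have key : 2 ^ t ≤ C.size := by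
    by_contra hlt
    rw [not_le, Circuit.size] at hlt
    refine hcore _ C.top Hs ?_ (fun j _ => (h1 j).trans (by omega)) fun x => ?_
    · have := Finset.card_le_univ C.top
      rw [Fintype.card_fin] at this
      omega
    · rw [← hσ x, ← h2 x, hC]
      rfl
  calc (2 : ℝ) ^ ((1 / 1000 : ℝ) * √((N : ℝ) * Real.log N)) ≤ (2 : ℝ) ^ (t : ℝ) :=
        Real.rpow_le_rpow_of_exponent_le (by norm_num) (h₁ N (le_of_max_le_right hN))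
    _ = ((2 ^ t : ℕ) : ℝ) := by rw [Real.rpow_natCast]; norm_num
    _ ≤ C.size := by exact_mod_cast key

theorem main : ∃ L : Set (List Bool), InP L ∧
    (∃ c : ℝ, 0 < c ∧ ∃ n₀ : ℕ, ∀ n ≥ n₀, ∀ C : Circuit n,
      (∀ x, C.Accepts x ↔ List.ofFn x ∈ L) →
        (2 : ℝ) ^ (c * √((n : ℝ) * Real.log n)) ≤ C.size) ∧
    ∀ A : ℝ, ∃ n₀ : ℕ, ∀ n ≥ n₀, ∀ C : Circuit n,
      (∀ x, C.Accepts x ↔ List.ofFn x ∈ L) → (2 : ℝ) ^ (A * √(n : ℝ)) ≤ C.size := by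
  obtain ⟨n₀, h⟩ := lower
  refine ⟨_, inP_fL, ⟨1 / 1000, by norm_num, n₀, h⟩, fun A => ?_⟩
  obtain ⟨N₀, h₁⟩ := omega_num A
  exact ⟨max n₀ N₀, fun n hn C hC =>
    (Real.rpow_le_rpow_of_exponent_le (by norm_num) (h₁ n (le_of_max_le_right hn))).trans
      (h n (le_of_max_le_left hn) C hC)⟩

end Vale.Agent.P336
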