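import Vale.Agent.P336.Basic

/-!
Sign flips of a random polynomial over a prime field.
-/

namespace Vale.Agent.P336

open Finset

variable {n : ℕ}

lemma MoA_pv_add {q s : ℕ} (c e : Fin s → ZMod q) (t y : ZMod q) :
    pv (c + t • e) y = pv c y + t * pv e y := by
  simp only [pv, Pi.add_apply, Pi.smul_apply, smul_eq_mul, add_mul, sum_add_distrib, mul_sum,
    mul_assoc]

/-- Hint: `ZMod.neg_val`, `q` is odd. -/
lemma sg_neg {q : ℕ} [Fact q.Prime] (h3 : 3 ≤ q) (v : ZMod q) : sg (-v) = - sg v := by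
  by_cases h : v = 0
  · simp [sg, h]
  have h1 : q % 2 = 1 := (Nat.Prime.eq_two_or_odd (Fact.out : q.Prime)).resolve_left (by omega)
  have h2 := ZMod.val_lt v
  simp only [sg, neg_eq_zero, if_neg h, ZMod.neg_val]
  split_ifs with a b b
  · omega
  · simp
  · simp
  · omega

/-- There is a coefficient vector with value one at `y i` and zero at the other points. Hint: the
coefficients of `∏ j ∈ univ.erase i, C (y i - y j)⁻¹ * (X - C (y j))`, of degree below `s`;
`Polynomial.eval_eq_sum_range'`. -/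
lemma exists_delta {q s : ℕ} [Fact q.Prime] (y : Fin s → ZMod q) (i : Fin s)
    (hi : ∀ j, j ≠ i → y j ≠ y i) :
    ∃ e : Fin s → ZMod q, pv e (y i) = 1 ∧ ∀ j, j ≠ i → pv e (y j) = 0 := by
  obtain ⟨p, hp⟩ : ∃ p : Polynomial (ZMod q), p = ∏ j ∈ univ.erase i,
    Polynomial.C (y i - y j)⁻¹ * (Polynomial.X - Polynomial.C (y j)) := ⟨_, rfl⟩
  have hd : p.natDegree < s := by
    have h1 : p.natDegree ≤ ∑ _j ∈ univ.erase i, 1 := by
      rw [hp]
      exact (Polynomial.natDegree_prod_le _ _).trans (sum_le_sum fun j _ =>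
        (Polynomial.natDegree_C_mul_le _ _).trans (Polynomial.natDegree_X_sub_C_le _))
    rw [sum_const, card_erase_of_mem (mem_univ _), card_univ, Fintype.card_fin, smul_eq_mul] at h1
    have := i.pos
    omega
  have he : ∀ z, pv (fun j : Fin s => p.coeff j) z =
      ∏ j ∈ univ.erase i, (y i - y j)⁻¹ * (z - y j) := fun z => by
    rw [pv, Fin.sum_univ_eq_sum_range (fun j => p.coeff j * z ^ j),
      ← Polynomial.eval_eq_sum_range' hd, hp, Polynomial.eval_prod]
    simp
  refine ⟨fun j => p.coeff j, ?_, fun j hj => ?_⟩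
  · rw [he]
    exact prod_eq_one fun j hj =>
      inv_mul_cancel₀ (sub_ne_zero.2 (hi j (ne_of_mem_erase hj)).symm)
  · rw [he]
    exact prod_eq_zero (mem_erase.2 ⟨hj, mem_univ _⟩) (by rw [sub_self, mul_zero])

/-- Hint: `c ↦ c - (2 * pv c (y i)) • e` is an involution that changes the sign of the product. -/
lemma flip_sum {q s : ℕ} [Fact q.Prime] (h3 : 3 ≤ q) (y : Fin s → ZMod q) (i : Fin s)
    (hi : ∀ j, j ≠ i → y j ≠ y i) :
    ∑ c : Fin s → ZMod q, ∏ j, sg (pv c (y j)) = 0 := by
  obtain ⟨e, e1, e2⟩ := exists_delta y i hi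
  obtain ⟨σ, hσ⟩ : ∃ σ : (Fin s → ZMod q) → Fin s → ZMod q,
    σ = fun c => c + (-2 * pv c (y i)) • e := ⟨_, rfl⟩
  have h1 : ∀ c, pv (σ c) (y i) = -pv c (y i) := fun c => by
    simp only [hσ, MoA_pv_add, e1]; ring
  have h2 : ∀ c j, j ≠ i → pv (σ c) (y j) = pv c (y j) := fun c j hj => by
    simp only [hσ, MoA_pv_add, e2 j hj]; ring
  have h3' : Function.Involutive σ := fun c => by
    have h4 : σ (σ c) = σ c + (-2 * pv (σ c) (y i)) • e := by
      conv_lhs => rw [hσ]
      simp only [hσ]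
    rw [h4, h1]
    simp only [hσ]
    rw [add_assoc, ← add_smul, show -2 * pv c (y i) + -2 * -pv c (y i) = 0 by ring, zero_smul,
      add_zero]
  have h5 : ∀ c, ∏ j, sg (pv (σ c) (y j)) = -∏ j, sg (pv c (y j)) := fun c => by
    rw [← mul_prod_erase _ _ (mem_univ i), ← mul_prod_erase _ _ (mem_univ i), h1, sg_neg h3,
      neg_mul]
    exact congrArg (fun t => -(_ * t))
      (prod_congr rfl fun j hj => by rw [h2 c j (ne_of_mem_erase hj)])
  have h6 := h3'.bijective.sum_comp fun c => ∏ j, sg (pv c (y j))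
  simp only [h5, sum_neg_distrib] at h6
  linarith

/-- Hint: adding one to the constant coefficient maps the set injectively into its complement. -/
lemma zero_half {q s : ℕ} [Fact q.Prime] (hs : 1 ≤ s) (y : ZMod q) :
    2 * (univ.filter fun c : Fin s → ZMod q => pv c y = 0).card ≤ q ^ s := by
  obtain ⟨e, he⟩ : ∃ e : Fin s → ZMod q, pv e y = 1 :=
    ⟨Pi.single ⟨0, hs⟩ 1, by
      rw [pv, sum_eq_single ⟨0, hs⟩ (fun j _ hj => by rw [Pi.single_eq_of_ne hj, zero_mul])
        (fun h => absurd (mem_univ _) h)]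
      simp⟩
  have h1 : (univ.filter fun c : Fin s → ZMod q => pv c y = 0).card ≤
      (univ.filter fun c : Fin s → ZMod q => ¬pv c y = 0).card := by
    refine card_le_card_of_injOn (fun c => c + (1 : ZMod q) • e) (fun c hc => ?_)
      fun c _ d _ h => add_right_cancel h
    have h2 : pv c y = 0 := (mem_filter.1 (mem_coe.1 hc)).2
    refine mem_coe.2 (mem_filter.2 ⟨mem_univ _, ?_⟩)
    rw [MoA_pv_add, h2, he, one_mul, zero_add]
    exact one_ne_zero
  have h2 := card_filter_add_card_filter_not (s := (univ : Finset (Fin s → ZMod q)))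
    (fun c => pv c y = 0)
  rw [card_univ, Fintype.card_fun, ZMod.card, Fintype.card_fin] at h2
  omega

end Vale.Agent.P336
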