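import Vale.Agent.P336.Basic

/-!
Tuples without a single point.
-/

namespace Vale.Agent.P336

open Finset

variable {n : ℕ}

/-- A tuple of length `2 s` in which every entry is repeated has at most `s` different entries, so
it factors as `φ ∘ ψ` with `ψ : Fin (2 * s) → Fin s` and `φ : Fin s → X` with values in `V`. -/
lemma card_nosingle {X : Type} [DecidableEq X] (V : Finset X) (s : ℕ) :
    ((Fintype.piFinset fun _ : Fin (2 * s) => V).filter
      fun y => ∀ i, ∃ j, j ≠ i ∧ y j = y i).card ≤ s ^ (2 * s) * V.card ^ s := by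
  have h0 : ((univ : Finset (Fin (2 * s) → Fin s)) ×ˢ
      Fintype.piFinset fun _ : Fin s => V).card = s ^ (2 * s) * V.card ^ s := by
    simp [card_product]
  rw [← h0]
  refine le_trans (card_le_card fun y hy => ?_) (card_image_le (f := fun z => z.2 ∘ z.1))
  obtain ⟨h1, h2⟩ := mem_filter.1 hy
  rw [Fintype.mem_piFinset] at h1
  have h3 := mul_card_image_le_card (f := y) univ 2 fun a ha => by
    obtain ⟨i, -, rfl⟩ := mem_image.1 ha
    obtain ⟨j, j1, j2⟩ := h2 i
    exact one_lt_card.2 ⟨j, by simp [j2], i, by simp, j1⟩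
  rw [card_univ, Fintype.card_fin] at h3
  obtain ⟨e⟩ : Nonempty (univ.image y ↪ Fin s) :=
    Function.Embedding.nonempty_of_card_le (by rw [Fintype.card_coe, Fintype.card_fin]; omega)
  refine mem_image.2 ⟨(fun i => e ⟨y i, mem_image_of_mem _ (mem_univ i)⟩,
    Function.extend e Subtype.val fun k => y ⟨k, by omega⟩),
    mem_product.2 ⟨mem_univ _, Fintype.mem_piFinset.2 fun k => ?_⟩, funext fun i => ?_⟩
  · by_cases h : ∃ a, e a = k
    · obtain ⟨⟨a, ha⟩, rfl⟩ := h
      obtain ⟨i, -, rfl⟩ := mem_image.1 ha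
      simp only [e.injective.extend_apply]
      exact h1 i
    · simp only [Function.extend_apply' _ _ _ h]
      exact h1 _
  · simp only [Function.comp_apply, e.injective.extend_apply]

end Vale.Agent.P336
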