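import Vale.Agent.P336.MoA
import Vale.Agent.P336.MoB

/-!
The moment bound and the collisions of the hash.
-/

namespace Vale.Agent.P336

open Finset

variable {n : ℕ}

/-- Expand the power with `Finset.sum_pow'` (or `Finset.prod_univ_sum`), exchange the sums; tuples
with a single point vanish by `flip_sum`, the others contribute at most `q ^ (2 s)` each. -/
lemma moment {q s : ℕ} [Fact q.Prime] (h3 : 3 ≤ q) (V : Finset (Pt n)) (a : ZMod q)
    (hinj : Set.InjOn (hsh a) (V : Set (Pt n))) :
    ∑ c : Fin (2 * s) → ZMod q, (∑ x ∈ V, gs a c x) ^ (2 * s) ≤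
      (q : ℝ) ^ (2 * s) * ((s : ℝ) ^ (2 * s) * (V.card : ℝ) ^ s) := by
  classical
  simp only [Finset.sum_pow']
  rw [sum_comm]
  have h1 : ∀ p ∈ Fintype.piFinset fun _ : Fin (2 * s) => V,
      ∑ c : Fin (2 * s) → ZMod q, ∏ i, gs a c (p i) ≤
        if ∀ i, ∃ j, j ≠ i ∧ p j = p i then (q : ℝ) ^ (2 * s) else 0 := by
    intro p hp
    split_ifs with h
    · have a1 : ∀ c : Fin (2 * s) → ZMod q, ∏ i, gs a c (p i) ≤ 1 := fun c => by
        refine (le_abs_self _).trans ?_
        rw [Finset.abs_prod]
        exact prod_le_one (fun i _ => abs_nonneg _) fun i _ => abs_gs_le _ _ _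
      refine (sum_le_sum fun c _ => a1 c).trans (le_of_eq ?_)
      simp [ZMod.card]
    · push Not at h
      obtain ⟨i, hi⟩ := h
      refine (flip_sum h3 (fun j => hsh a (p j)) i fun j hj e => hi j hj ?_).le
      exact hinj (Fintype.mem_piFinset.1 hp j) (Fintype.mem_piFinset.1 hp i) e
  refine (sum_le_sum h1).trans ?_
  rw [← sum_filter, sum_const, nsmul_eq_mul, mul_comm]
  refine mul_le_mul_of_nonneg_left ?_ (by positivity)
  exact_mod_cast card_nosingle V s

lemma MoC_pair {q : ℕ} [Fact q.Prime] {x y : Pt n} (h : x ≠ y) :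
    (univ.filter fun a : ZMod q => hsh a x = hsh a y).card ≤ n := by
  classical
  obtain ⟨d, hd⟩ : ∃ d : Fin n → ZMod q, d = fun i =>
    (if x i = true then 1 else 0) - (if y i = true then 1 else 0) := ⟨_, rfl⟩
  obtain ⟨f, hf⟩ : ∃ f : Polynomial (ZMod q), f = ∑ i : Fin n, Polynomial.monomial i (d i) :=
    ⟨_, rfl⟩
  have h1 : f ≠ 0 := by
    obtain ⟨i, hi⟩ := Function.ne_iff.1 h
    intro h0
    have a1 : f.coeff i = d i := by
      rw [hf, Polynomial.finsetSum_coeff, sum_eq_single i]
      · exact Polynomial.coeff_monomial_same _ _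
      · intro j _ hj
        exact Polynomial.coeff_monomial_of_ne _ fun e => hj (Fin.ext e.symm)
      · simp
    rw [h0, Polynomial.coeff_zero, hd] at a1
    revert a1 hi
    cases hx : x i <;> cases hy : y i <;> simp [hx, hy]
  have h2 : f.natDegree ≤ n := by
    rw [hf]
    exact Polynomial.natDegree_sum_le_of_forall_le _ _ fun i _ =>
      (Polynomial.natDegree_monomial_le _).trans i.2.le
  have h3 : (univ.filter fun a : ZMod q => hsh a x = hsh a y) ⊆ f.roots.toFinset := by
    intro a ha
    rw [Multiset.mem_toFinset, Polynomial.mem_roots h1, Polynomial.IsRoot, hf,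
      Polynomial.eval_finsetSum]
    simp only [Polynomial.eval_monomial, hd, sub_mul, sum_sub_distrib]
    exact sub_eq_zero.2 (mem_filter.1 ha).2
  exact (card_le_card h3).trans ((Multiset.toFinset_card_le _).trans
    ((Polynomial.card_roots' f).trans h2))

open Classical in
/-- For `x ≠ y` the collisions `a` are roots of a nonzero polynomial of degree below `n`
(`Polynomial.card_roots'`); union over the pairs. -/
lemma hash_bad {q : ℕ} [Fact q.Prime] (V : Finset (Pt n)) :
    (univ.filter fun a : ZMod q => ¬ Set.InjOn (hsh a) (V : Set (Pt n))).card ≤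
      V.card ^ 2 * n := by
  have h1 : (univ.filter fun a : ZMod q => ¬ Set.InjOn (hsh a) (V : Set (Pt n))) ⊆
      V.offDiag.biUnion fun z => univ.filter fun a : ZMod q => hsh a z.1 = hsh a z.2 := by
    intro a ha
    have a1 := (mem_filter.1 ha).2
    unfold Set.InjOn at a1
    push Not at a1
    obtain ⟨x, hx, y, hy, e, hne⟩ := a1
    exact mem_biUnion.2 ⟨(x, y), mem_offDiag.2 ⟨hx, hy, hne⟩, mem_filter.2 ⟨mem_univ _, e⟩⟩
  refine (card_le_card h1).trans ((card_biUnion_le_card_mul _ _ n fun z hz =>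
    MoC_pair (mem_offDiag.1 hz).2.2).trans (Nat.mul_le_mul_right _ ?_))
  rw [offDiag_card, sq]
  exact Nat.sub_le _ _

end Vale.Agent.P336
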