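import Vale.Agent.P336.Basic

/-!
Numerical consequences of the parameter conditions.
-/

namespace Vale.Agent.P336

open Finset

variable {n : ℕ}

lemma Nu_pos {t M b s q : ℕ} (hP : Par n t M b s q) : 0 < n := by
  have h1 := hP.hM
  have h2 := hP.hMn
  omega

lemma Par.one_le_b {t M b s q : ℕ} (hP : Par n t M b s q) : 1 ≤ b := by
  have hn := Nu_pos hP
  have hb := hP.hb
  rcases Nat.eq_zero_or_pos b with h | h
  · subst h
    simp only [zero_mul] at hb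
    omega
  · exact h

lemma Par.two_s_le {t M b s q : ℕ} (hP : Par n t M b s q) : 2 * s ≤ n := by
  have h1 : 2 ^ (2 * s) ≤ q ^ (2 * s) := Nat.pow_le_pow_left (by have := hP.three; omega) _
  exact (Nat.pow_le_pow_iff_right (by norm_num : 1 < 2)).1 (h1.trans hP.hqs)

lemma Nu_tenth {t M b s q : ℕ} (hP : Par n t M b s q) {m : ℕ} (h1 : M ≤ 8 * m) :
    (4 ^ m * (2 * n + 2) ^ (b * (m * 1024 ^ b)) * s ^ (2 * s) * 2 ^ (t + 14)) ^ 10 ≤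
      4 ^ (m * s) := by
  have hM := hP.hM
  have hL := hP.hL
  have hs := hP.hs
  have h2s := hP.two_s_le
  generalize hLdef : Nat.log 2 n = L at hL hs
  have hn : n < 2 ^ (L + 1) := by
    rw [← hLdef]; exact Nat.lt_pow_succ_log_self (by norm_num) n
  have htm : t + 14 ≤ m := by omega
  have hA : 2 * n + 2 ≤ 2 ^ (L + 2) := by
    have : 2 ^ (L + 2) = 2 * 2 ^ (L + 1) := by ring
    omega
  have hB : s ^ 20 ≤ 2 ^ m := by
    calc s ^ 20 ≤ (2 ^ (L + 1)) ^ 20 := Nat.pow_le_pow_left (by omega) _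
      _ = 2 ^ (20 * (L + 1)) := by rw [← pow_mul, mul_comm]
      _ ≤ 2 ^ m := Nat.pow_le_pow_right (by norm_num) (by omega)
  generalize hK : 1024 ^ b = K at hs
  have e1 : (4 ^ m * (2 * n + 2) ^ (b * (m * K)) * s ^ (2 * s) * 2 ^ (t + 14)) ^ 10 =
      (4 ^ m) ^ 10 * ((2 * n + 2) ^ (b * (m * K))) ^ 10 * (s ^ 20) ^ s * (2 ^ (t + 14)) ^ 10 := by
    rw [mul_pow, mul_pow, mul_pow, ← pow_mul s, ← pow_mul s]
    congr 3
    ring
  rw [e1]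
  have f1 : (4 ^ m) ^ 10 = 2 ^ (20 * m) := by
    rw [← pow_mul 4, show 20 * m = 2 * (m * 10) by ring, pow_mul 2 2,
      show (2 : ℕ) ^ 2 = 4 by norm_num]
  have f2 : ((2 * n + 2) ^ (b * (m * K))) ^ 10 ≤ 2 ^ ((L + 2) * (b * (m * K)) * 10) := by
    calc ((2 * n + 2) ^ (b * (m * K))) ^ 10 ≤ ((2 ^ (L + 2)) ^ (b * (m * K))) ^ 10 :=
          Nat.pow_le_pow_left (Nat.pow_le_pow_left hA _) _
      _ = 2 ^ ((L + 2) * (b * (m * K)) * 10) := by rw [← pow_mul 2, ← pow_mul 2]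
  have f3 : (s ^ 20) ^ s ≤ 2 ^ (m * s) := by
    calc (s ^ 20) ^ s ≤ (2 ^ m) ^ s := Nat.pow_le_pow_left hB _
      _ = 2 ^ (m * s) := by rw [← pow_mul 2]
  have f4 : (2 ^ (t + 14)) ^ 10 ≤ 2 ^ (m * 10) := by
    calc (2 ^ (t + 14)) ^ 10 ≤ (2 ^ m) ^ 10 :=
          Nat.pow_le_pow_left (Nat.pow_le_pow_right (by norm_num) htm) _
      _ = 2 ^ (m * 10) := by rw [← pow_mul 2]
  have f5 : 4 ^ (m * s) = 2 ^ (2 * (m * s)) := by
    rw [pow_mul 2 2, show (2 : ℕ) ^ 2 = 4 by norm_num]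
  rw [f1, f5]
  calc 2 ^ (20 * m) * ((2 * n + 2) ^ (b * (m * K))) ^ 10 * (s ^ 20) ^ s * (2 ^ (t + 14)) ^ 10
      ≤ 2 ^ (20 * m) * 2 ^ ((L + 2) * (b * (m * K)) * 10) * 2 ^ (m * s) * 2 ^ (m * 10) := by
        exact Nat.mul_le_mul (Nat.mul_le_mul (Nat.mul_le_mul le_rfl f2) f3) f4
    _ = 2 ^ (m * (30 + 10 * (L + 2) * b * K) + m * s) := by
        rw [← pow_add, ← pow_add, ← pow_add]
        exact congrArg (fun k => 2 ^ k) (by ring)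
    _ ≤ 2 ^ (2 * (m * s)) := by
        apply Nat.pow_le_pow_right (by norm_num)
        have := Nat.mul_le_mul_left m hs
        omega

/-- With `ψ = 2401 / 2048` the claim is `4 ^ m * (2 n + 2) ^ _ * s ^ (2 s) * 2 ^ (t + 14) ≤
ψ ^ (m s)`. Compare tenth powers (`pow_le_pow_left₀`, `pow_le_pow_iff_left₀`): `4 ≤ ψ ^ 10`;
`s ^ 20 ≤ 2 ^ m` since `s ≤ n < 2 ^ (L + 1)` and `20 (L + 1) ≤ t + 14 ≤ m`;
`2 n + 2 ≤ 2 ^ (L + 2)`, `L = Nat.log 2 n`; then `hs`. It is easiest to prove the inequality of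
tenth powers in `ℕ` first. -/
lemma Par.moment_num {t M b s q : ℕ} (hP : Par n t M b s q) {m : ℕ} (h1 : M ≤ 8 * m) :
    ((4 : ℝ) ^ m * (2 * n + 2) ^ (b * (m * 1024 ^ b))) * ((s : ℝ) ^ (2 * s) * (2 ^ m) ^ s) *
      2 ^ (t + 14) ≤ ((49 / 32 : ℝ) ^ m) ^ (2 * s) := by
  have h10 : (((4 : ℝ) ^ m * (2 * n + 2) ^ (b * (m * 1024 ^ b)) * (s : ℝ) ^ (2 * s) *
      2 ^ (t + 14))) ^ 10 ≤ 4 ^ (m * s) := by
    exact_mod_cast Nu_tenth hP h1
  have hψ : (4 : ℝ) ^ (m * s) ≤ ((2401 / 2048 : ℝ) ^ (m * s)) ^ 10 := by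
    rw [← pow_mul, mul_comm (m * s) 10, pow_mul (2401 / 2048 : ℝ) 10]
    exact pow_le_pow_left₀ (by norm_num) (by norm_num) _
  have h : (4 : ℝ) ^ m * (2 * n + 2) ^ (b * (m * 1024 ^ b)) * (s : ℝ) ^ (2 * s) *
      2 ^ (t + 14) ≤ (2401 / 2048 : ℝ) ^ (m * s) :=
    (pow_le_pow_iff_left₀ (by positivity) (by positivity) (by norm_num : (10 : ℕ) ≠ 0)).1
      (h10.trans hψ)
  have e : ((49 / 32 : ℝ) ^ m) ^ (2 * s) = (2401 / 2048 : ℝ) ^ (m * s) * (2 ^ m) ^ s := by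
    rw [← pow_mul, ← pow_mul, ← mul_pow, show m * (2 * s) = 2 * (m * s) by ring, pow_mul]
    norm_num
  rw [e]
  calc ((4 : ℝ) ^ m * (2 * n + 2) ^ (b * (m * 1024 ^ b))) * ((s : ℝ) ^ (2 * s) * (2 ^ m) ^ s) *
      2 ^ (t + 14) = ((4 : ℝ) ^ m * (2 * n + 2) ^ (b * (m * 1024 ^ b)) * (s : ℝ) ^ (2 * s) *
      2 ^ (t + 14)) * (2 ^ m) ^ s := by ring
    _ ≤ (2401 / 2048 : ℝ) ^ (m * s) * (2 ^ m) ^ s := by gcongr

/-- `(1 + 2 u) ^ k ≤ exp (2 u k)`, `3 u k + 1 ≤ b` by `hb`, and `exp (2 / 3) ≤ 2`. -/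
lemma Par.eps_num {t M b s q : ℕ} (hP : Par n t M b s q) :
    2 * (1 + 2 * ((M : ℝ) / n)) ^ (2 * t + 6) ≤ 2 ^ b := by
  have hn : (0 : ℝ) < n := by exact_mod_cast Nu_pos hP
  have hb1 := hP.one_le_b
  obtain ⟨c, rfl⟩ : ∃ c, b = c + 1 := ⟨b - 1, by omega⟩
  have hb : (3 : ℝ) * M * (2 * t + 6) + n ≤ (c + 1) * n := by exact_mod_cast hP.hb
  set u : ℝ := (M : ℝ) / n with hu
  have hu0 : 0 ≤ u := by positivity
  have hMu : (M : ℝ) = u * n := by rw [hu]; field_simp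
  have hc : 3 * u * (2 * t + 6) ≤ c := by
    rw [hMu] at hb
    have : (3 * u * (2 * t + 6)) * n ≤ c * n := by nlinarith
    exact le_of_mul_le_mul_right this hn
  have h1 : (1 + 2 * u) ^ (2 * t + 6) ≤ Real.exp (2 * u) ^ (2 * t + 6) :=
    pow_le_pow_left₀ (by positivity) (by have := Real.add_one_le_exp (2 * u); linarith) _
  have h2 : Real.exp (2 * u) ^ (2 * t + 6) ≤ Real.exp (2 / 3) ^ c := by
    rw [← Real.exp_nat_mul, ← Real.exp_nat_mul]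
    apply Real.exp_le_exp.2
    push_cast
    nlinarith
  have h3 : Real.exp (2 / 3) ≤ 2 := by
    have hl := Real.log_two_gt_d9
    calc Real.exp (2 / 3) ≤ Real.exp (Real.log 2) := Real.exp_le_exp.2 (by linarith)
      _ = 2 := Real.exp_log (by norm_num)
  have h4 : Real.exp (2 / 3) ^ c ≤ 2 ^ c := pow_le_pow_left₀ (Real.exp_pos _).le h3 _
  rw [pow_succ 2 c]
  linarith

end Vale.Agent.P336
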