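import Vale.Agent.P336.T

/-!
The signed expansion over the wide patterns.
-/

namespace Vale.Agent.P336

open Finset

variable {n : ℕ}

lemma RA_one {b : ℕ} {ρ : Res n} {τ : Pat n} (hb : (τ ∩ liveL ρ).card ≤ b) :
    IsTest b ρ ((cube ρ).filter fun x => ¬Mat x τ) := by
  refine ⟨filter_subset _ _, fun x hx hn => ?_⟩
  have hm : Mat x τ := not_not.1 fun h => hn (mem_filter.2 ⟨hx, h⟩)
  refine ⟨τ ∩ liveL ρ, inter_subset_right, hb, fun l hl => hm l (mem_inter.1 hl).1,
    fun y hy hy' => (mem_filter.1 hy).2 fun l hl => ?_⟩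
  cases hρ : ρ l.1 with
  | none => exact hy' l (mem_inter.2 ⟨hl, mem_liveL.2 hρ⟩)
  | some c => rw [mem_cube.1 (mem_filter.1 hy).1 _ _ hρ, ← mem_cube.1 hx _ _ hρ, hm l hl]

open Classical in
lemma RA_ind (H : List (Pat n)) (b : ℕ) (ρ : Res n) (g : Pt n → ℝ) (c : ℝ) (D : Res n → ℝ)
    (hc : ∀ B, IsTest b ρ B → |∑ x ∈ B, g x| ≤ c)
    (hD : ∀ ρ' I, I ≤ H.length → ∀ E, IsTest b ρ' E → |∑ x ∈ E ∩ sol (H.take I), g x| ≤ D ρ')
    (hD0 : ∀ ρ', 0 ≤ D ρ') (I : ℕ) : I ≤ H.length → ∀ E, IsTest b ρ E →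
      |∑ x ∈ E ∩ sol (H.take I), g x| ≤
        c + ∑ i ∈ range I, if Valid H b ρ i then D (fixp ρ (H.getD i ∅)) else 0 := by
  induction I with
  | zero =>
    intro hI E hE
    have e : E ∩ sol (H.take 0) = E :=
      inter_eq_left.2 fun x _ => (mem_sol_take hI).2 fun i hi => absurd hi (Nat.not_lt_zero i)
    rw [e, sum_range_zero, add_zero]
    exact hc E hE
  | succ I ih =>
    intro hI E hE
    have hI' : I ≤ H.length := by omega
    have nn : 0 ≤ if Valid H b ρ I then D (fixp ρ (H.getD I ∅)) else 0 := by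
      split_ifs
      · exact hD0 _
      · exact le_rfl
    rw [sum_range_succ, ← add_assoc]
    by_cases hw : (H.getD I ∅ ∩ liveL ρ).card ≤ b
    · have e : E ∩ sol (H.take (I + 1)) =
          (E ∩ (cube ρ).filter fun x => ¬Mat x (H.getD I ∅)) ∩ sol (H.take I) := by
        ext x
        simp only [mem_inter, mem_filter, mem_sol_take hI, mem_sol_take hI',
          Nat.forall_lt_succ_right]
        exact ⟨fun h => ⟨⟨h.1, hE.1 h.1, h.2.2⟩, h.2.1⟩, fun h => ⟨h.1.1, h.2, h.1.2.2⟩⟩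
      rw [e]
      exact (ih hI' _ (hE.inter (RA_one hw))).trans (le_add_of_nonneg_right nn)
    · have e1 : E ∩ sol (H.take (I + 1)) =
          (E ∩ sol (H.take I)).filter fun x => ¬Mat x (H.getD I ∅) := by
        ext x
        simp only [mem_inter, mem_filter, mem_sol_take hI, mem_sol_take hI',
          Nat.forall_lt_succ_right, and_assoc]
      have e3 : ∑ x ∈ E ∩ sol (H.take (I + 1)), g x = ∑ x ∈ E ∩ sol (H.take I), g x -
          ∑ x ∈ (E ∩ sol (H.take I)).filter fun x => Mat x (H.getD I ∅), g x := by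
        rw [e1, ← sum_filter_add_sum_filter_not (E ∩ sol (H.take I)) fun x => Mat x (H.getD I ∅)]
        ring
      rw [e3]
      refine (abs_sub _ _).trans (add_le_add (ih hI' E hE) ?_)
      rcases ((E ∩ sol (H.take I)).filter fun x => Mat x (H.getD I ∅)).eq_empty_or_nonempty with
        h0 | ⟨x, hx⟩
      · rw [h0, sum_empty, abs_zero]
        exact nn
      · obtain ⟨h1, h2⟩ := mem_filter.1 hx
        obtain ⟨h3, h4⟩ := mem_inter.1 h1
        have hex : ∃ x ∈ cube ρ, Mat x (H.getD I ∅) := ⟨x, hE.1 h3, h2⟩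
        have e2 : ((E ∩ sol (H.take I)).filter fun x => Mat x (H.getD I ∅)) =
            (E ∩ cube (fixp ρ (H.getD I ∅))) ∩ sol (H.take I) := by
          ext y
          simp only [mem_inter, mem_filter, mem_cube_fixp hex]
          exact ⟨fun h => ⟨⟨h.1.1, hE.1 h.1.1, h.2⟩, h.1.2⟩, fun h => ⟨⟨h.1.1, h.2⟩, h.1.2.2⟩⟩
        rw [if_pos ⟨not_le.1 hw, x, hE.1 h3, h2, h4⟩, e2]
        exact hD _ I hI' _ (hE.restrict fun y hy => ((mem_cube_fixp hex).1 hy).1)

open Classical in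
/-- Let `N` be the test of `isTest_narrow H b I ρ`. Then `E ∩ N` is the disjoint union of
`E ∩ sol (H.take I)` and, for `i < I`, of the pieces
`(E ∩ N ∩ cube (fixp ρ τ)) ∩ sol (H.take i)` with `τ = H.getD i ∅`, `i` the first index of a
matched pattern (`Nat.find`, `Finset.sum_fiberwise_of_maps_to` or induction on `I`); a piece is
empty unless `Valid H b ρ i`. `D` is nonnegative by `hD` with `isTest_cube`. -/
lemma expand (H : List (Pat n)) (b : ℕ) (ρ : Res n) (g : Pt n → ℝ) (c : ℝ) (D : Res n → ℝ)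
    (hc : ∀ B, IsTest b ρ B → |∑ x ∈ B, g x| ≤ c)
    (hD : ∀ ρ' I, I ≤ H.length → ∀ E, IsTest b ρ' E → |∑ x ∈ E ∩ sol (H.take I), g x| ≤ D ρ')
    (I : ℕ) (hI : I ≤ H.length) (E : Finset (Pt n)) (hE : IsTest b ρ E) :
    |∑ x ∈ E ∩ sol (H.take I), g x| ≤
      c + ∑ i ∈ (range H.length).filter (Valid H b ρ), D (fixp ρ (H.getD i ∅)) := by
  have hD0 : ∀ ρ', 0 ≤ D ρ' := fun ρ' =>
    (abs_nonneg _).trans (hD ρ' 0 (Nat.zero_le _) _ (isTest_cube b ρ'))
  refine (RA_ind H b ρ g c D hc hD hD0 I hI E hE).trans (add_le_add le_rfl ?_)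
  rw [← sum_filter]
  exact sum_le_sum_of_subset_of_nonneg (filter_subset_filter _ (range_subset_range.2 hI))
    fun i _ _ => hD0 _

end Vale.Agent.P336
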