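import Vale.Agent.P336.T

/-!
Decoding an edge of the expansion from its end point.
-/

namespace Vale.Agent.P336

open Finset

variable {n : ℕ}

lemma RB_lt {H : List (Pat n)} {b : ℕ} {ρ ρ' : Res n} {i i' : ℕ} (hi' : i' < H.length)
    (h : Valid H b ρ i) (h' : Valid H b ρ' i')
    (e : fixp ρ (H.getD i ∅) = fixp ρ' (H.getD i' ∅)) : ¬i < i' := fun hlt => by
  obtain ⟨x, hx1, hx2, -⟩ := h.2
  obtain ⟨y, hy1, hy2, hy3⟩ := h'.2
  have h1 : y ∈ cube (fixp ρ' (H.getD i' ∅)) := (mem_cube_fixp ⟨y, hy1, hy2⟩).2 ⟨hy1, hy2⟩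
  rw [← e, mem_cube_fixp ⟨x, hx1, hx2⟩] at h1
  exact (mem_sol_take hi'.le).1 hy3 i hlt h1.2

/-- The index of a valid edge is determined by its end point: all points of the end cube match
the pattern, and some point matches no earlier pattern. -/
lemma valid_unique {H : List (Pat n)} {b : ℕ} {ρ ρ' : Res n} {i i' : ℕ} (hi : i < H.length)
    (hi' : i' < H.length) (h : Valid H b ρ i) (h' : Valid H b ρ' i')
    (e : fixp ρ (H.getD i ∅) = fixp ρ' (H.getD i' ∅)) : i = i' :=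
  le_antisymm (not_lt.1 (RB_lt hi h' h e.symm)) (not_lt.1 (RB_lt hi' h h' e))

/-- Hint: `u ^ j ≤ (2 u) ^ j / 2 ^ b` for `j > b`, and `Finset.sum_pow_mul_eq_add_pow` (or
`Finset.prod_one_add`). -/
lemma sum_wide_le (τ : Pat n) {b k : ℕ} (hk : τ.card ≤ k) {u : ℝ} (hu : 0 ≤ u)
    (hε : 2 * (1 + 2 * u) ^ k ≤ 2 ^ b) :
    ∑ J ∈ τ.powerset.filter (fun J => b < J.card), u ^ J.card ≤ 1 / 2 := by
  have h1 : ∑ s ∈ τ.powerset, (2 * u) ^ s.card = (1 + 2 * u) ^ τ.card := by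
    rw [← prod_const, prod_one_add]
    simp only [prod_const]
  have h2 : 2 ^ b * ∑ s ∈ τ.powerset with b < s.card, u ^ s.card ≤ (1 + 2 * u) ^ k := by
    refine le_trans ?_ (pow_le_pow_right₀ (by linarith) hk)
    rw [← h1, mul_sum]
    refine (sum_le_sum fun s hs => ?_).trans
      (sum_le_sum_of_subset_of_nonneg (filter_subset _ _) fun s _ _ => by positivity)
    rw [mul_pow]
    exact mul_le_mul_of_nonneg_right (pow_le_pow_right₀ one_le_two (mem_filter.1 hs).2.le)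
      (pow_nonneg hu _)
  have h3 : (0 : ℝ) < 2 ^ b := by positivity
  nlinarith

open Classical in
lemma RB_count (H : List (Pat n)) {b : ℕ} {u : ℝ} (hu : 0 ≤ u) (D : Res n → ℝ) (hD : ∀ ρ, 0 ≤ D ρ)
    (j : ℕ) (ht : ∑ J ∈ (H.getD j ∅).powerset.filter (fun J => b < J.card), u ^ J.card ≤ 1 / 2) :
    ∑ ρ with Valid H b ρ j, u ^ live ρ * D (fixp ρ (H.getD j ∅)) ≤
      (∑ ρ ∈ (univ.filter fun ρ => Valid H b ρ j).image fun ρ => fixp ρ (H.getD j ∅),
        u ^ live ρ * D ρ) * (1 / 2) := by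
  have ex : ∀ ρ, Valid H b ρ j → ∃ x ∈ cube ρ, Mat x (H.getD j ∅) := fun ρ h =>
    h.2.imp fun x hx => ⟨hx.1, hx.2.1⟩
  have inj : Set.InjOn (fun ρ : Res n => (fixp ρ (H.getD j ∅), H.getD j ∅ ∩ liveL ρ))
      (univ.filter fun ρ => Valid H b ρ j : Finset _) := fun ρ h ρ' h' e =>
    fixp_inj (ex ρ (mem_filter.1 h).2) (ex ρ' (mem_filter.1 h').2) (Prod.mk.inj e).1
      (Prod.mk.inj e).2
  have e1 : ∑ ρ with Valid H b ρ j, u ^ live ρ * D (fixp ρ (H.getD j ∅)) =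
      ∑ v ∈ (univ.filter fun ρ => Valid H b ρ j).image
        fun ρ => (fixp ρ (H.getD j ∅), H.getD j ∅ ∩ liveL ρ),
        u ^ live v.1 * D v.1 * u ^ v.2.card := by
    rw [sum_image inj]
    refine sum_congr rfl fun ρ hρ => ?_
    rw [live_fixp ρ ((ex ρ (mem_filter.1 hρ).2).imp fun x hx => hx.2), pow_add]
    ring
  refine le_trans ?_ (mul_le_mul_of_nonneg_left ht
    (sum_nonneg fun ρ _ => mul_nonneg (pow_nonneg hu _) (hD ρ)))
  rw [e1, sum_mul_sum, ← sum_product']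
  refine sum_le_sum_of_subset_of_nonneg (fun v hv => ?_) fun v _ _ =>
    mul_nonneg (mul_nonneg (pow_nonneg hu _) (hD _)) (pow_nonneg hu _)
  obtain ⟨ρ, hρ, rfl⟩ := mem_image.1 hv
  exact mem_product.2 ⟨mem_image_of_mem _ hρ,
    mem_filter.2 ⟨mem_powerset.2 inter_subset_left, (mem_filter.1 hρ).2.1⟩⟩

open Classical in
/-- Group the valid pairs `(ρ, i)` by `ρ' = fixp ρ (H.getD i ∅)`. By `live_fixp`,
`u ^ live ρ = u ^ live ρ' * u ^ J.card` with `J = H.getD i ∅ ∩ liveL ρ`. In one fibre `i` is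
constant (`valid_unique`) and `ρ ↦ J` is injective (`fixp_inj`); use `sum_wide_le`. -/
lemma decode (H : List (Pat n)) {b k : ℕ} (hk : ∀ τ ∈ H, τ.card ≤ k) {u : ℝ} (hu : 0 ≤ u)
    (hε : 2 * (1 + 2 * u) ^ k ≤ 2 ^ b) (D : Res n → ℝ) (hD : ∀ ρ, 0 ≤ D ρ) :
    ∑ ρ : Res n, u ^ live ρ *
        ∑ i ∈ (range H.length).filter (Valid H b ρ), D (fixp ρ (H.getD i ∅)) ≤
      1 / 2 * ∑ ρ : Res n, u ^ live ρ * D ρ := by
  simp only [sum_filter, mul_sum, mul_ite, mul_zero]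
  rw [sum_comm, ← mul_sum, mul_comm]
  have hc : ∀ j ∈ range H.length, (H.getD j ∅).card ≤ k := fun j hj => by
    rw [List.getD_eq_getElem _ _ (mem_range.1 hj)]
    exact hk _ (List.getElem_mem _)
  refine (sum_le_sum fun j hj => (sum_filter _ _).symm.trans_le
    (RB_count H hu D hD j (sum_wide_le _ (hc j hj) hu hε))).trans ?_
  rw [← sum_mul, ← sum_biUnion]
  · exact mul_le_mul_of_nonneg_right (sum_le_sum_of_subset_of_nonneg (subset_univ _)
      fun ρ _ _ => mul_nonneg (pow_nonneg hu _) (hD ρ)) (by norm_num)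
  · intro i hi j hj hij
    refine disjoint_left.2 fun ρ h1 h2 => hij ?_
    obtain ⟨ρ₁, a1, a2⟩ := mem_image.1 h1
    obtain ⟨ρ₂, b1, b2⟩ := mem_image.1 h2
    exact valid_unique (mem_range.1 hi) (mem_range.1 hj) (mem_filter.1 a1).2 (mem_filter.1 b1).2
      (a2.trans b2.symm)

end Vale.Agent.P336
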