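import Vale.Agent.P336.RA
import Vale.Agent.P336.RB

/-!
The restriction inequality.
-/

namespace Vale.Agent.P336

open Finset

variable {n : ℕ}

/-- Let `D ρ` be the maximum of `|∑ x ∈ E ∩ sol (H.take I), g x|` over `I ≤ H.length` and tests
`E` on `ρ` (`Finset.exists_max_image` on a filter of `range (H.length + 1) ×ˢ univ`, `choose`).
By `expand` and `decode`, `A = ∑ ρ, u ^ live ρ * D ρ` satisfies `A ≤ ∑ u ^ live ρ * c ρ + A / 2`.
Finish with `avg_cube`, `isTest_cube`, `List.take_length`. -/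
theorem restr (H : List (Pat n)) {b k : ℕ} (hk : ∀ τ ∈ H, τ.card ≤ k) {u : ℝ} (hu : 0 ≤ u)
    (hε : 2 * (1 + 2 * u) ^ k ≤ 2 ^ b) (g : Pt n → ℝ) (c : Res n → ℝ)
    (hc : ∀ ρ B, IsTest b ρ B → |∑ x ∈ B, g x| ≤ c ρ) :
    (1 + u) ^ n * |∑ x ∈ sol H, g x| ≤ 2 * ∑ ρ : Res n, u ^ live ρ * c ρ := by
  classical
  have ex : ∀ ρ : Res n, ∃ Z : Finset (Pt n),
      (∃ I ≤ H.length, ∃ E, IsTest b ρ E ∧ E ∩ sol (H.take I) = Z) ∧
      ∀ I, I ≤ H.length → ∀ E, IsTest b ρ E →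
        |∑ x ∈ E ∩ sol (H.take I), g x| ≤ |∑ x ∈ Z, g x| := fun ρ => by
    obtain ⟨Z, h1, h2⟩ := exists_max_image (univ.filter fun Z : Finset (Pt n) =>
      ∃ I ≤ H.length, ∃ E, IsTest b ρ E ∧ E ∩ sol (H.take I) = Z) (fun Z => |∑ x ∈ Z, g x|)
      ⟨_, mem_filter.2 ⟨mem_univ _, 0, Nat.zero_le _, _, isTest_cube b ρ, rfl⟩⟩
    exact ⟨Z, (mem_filter.1 h1).2, fun I hI E hE =>
      h2 _ (mem_filter.2 ⟨mem_univ _, I, hI, E, hE, rfl⟩)⟩
  choose Z hZ1 hZ2 using ex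
  set D : Res n → ℝ := fun ρ => |∑ x ∈ Z ρ, g x| with hD
  have r1 : ∀ ρ, D ρ ≤ c ρ +
      ∑ i ∈ (range H.length).filter (Valid H b ρ), D (fixp ρ (H.getD i ∅)) := fun ρ => by
    obtain ⟨I, hI, E, hE, e⟩ := hZ1 ρ
    have := expand H b ρ g (c ρ) D (hc ρ) hZ2 I hI E hE
    rwa [e] at this
  have r2 := sum_le_sum fun ρ (_ : ρ ∈ (univ : Finset (Res n))) =>
    mul_le_mul_of_nonneg_left (r1 ρ) (pow_nonneg hu (live ρ))
  simp only [mul_add, sum_add_distrib] at r2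
  have r3 := decode H hk hu hε D fun ρ => abs_nonneg _
  have r4 : (1 + u) ^ n * |∑ x ∈ sol H, g x| ≤ ∑ ρ : Res n, u ^ live ρ * D ρ := by
    rw [← abs_of_nonneg (a := (1 + u) ^ n) (by positivity), ← abs_mul, avg_cube]
    refine (abs_sum_le_sum_abs _ _).trans (sum_le_sum fun ρ _ => ?_)
    rw [abs_mul, abs_of_nonneg (pow_nonneg hu _)]
    have := hZ2 ρ _ le_rfl _ (isTest_cube b ρ)
    rw [List.take_length] at this
    exact mul_le_mul_of_nonneg_left this (pow_nonneg hu _)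
  linarith

end Vale.Agent.P336
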