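import Vale.Agent.P336.SpB
import Vale.Agent.P336.MoC
import Vale.Agent.P336.Nu

/-!
Few seeds are bad for a given restriction.
-/

namespace Vale.Agent.P336

open Finset

variable {n : ℕ}

open Classical in
lemma Se_markov {q s : ℕ} [Fact q.Prime] (h3 : 3 ≤ q) (U V : Finset (Pt n)) (hV : V ⊆ U)
    {η : ℝ} (h0 : 0 ≤ η) :
    ((univ.filter fun p : ZMod q × (Fin (2 * s) → ZMod q) =>
      Set.InjOn (hsh p.1) (U : Set (Pt n)) ∧ η < |∑ x ∈ V, gs p.1 p.2 x|).card : ℝ) *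
        η ^ (2 * s) ≤ (q : ℝ) ^ (2 * s + 1) * ((s : ℝ) ^ (2 * s) * (U.card : ℝ) ^ s) := by
  have hev : Even (2 * s) := even_two_mul s
  calc _ = ∑ _p ∈ univ.filter (fun p : ZMod q × (Fin (2 * s) → ZMod q) =>
          Set.InjOn (hsh p.1) (U : Set (Pt n)) ∧ η < |∑ x ∈ V, gs p.1 p.2 x|), η ^ (2 * s) := by
        rw [sum_const, nsmul_eq_mul]
    _ ≤ ∑ p ∈ univ.filter (fun p : ZMod q × (Fin (2 * s) → ZMod q) =>
          Set.InjOn (hsh p.1) (U : Set (Pt n)) ∧ η < |∑ x ∈ V, gs p.1 p.2 x|),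
          (if Set.InjOn (hsh p.1) (U : Set (Pt n)) then (∑ x ∈ V, gs p.1 p.2 x) ^ (2 * s)
            else 0) := by
        refine sum_le_sum fun p hp => ?_
        obtain ⟨hp1, hp2⟩ := (mem_filter.1 hp).2
        rw [if_pos hp1, ← hev.pow_abs (∑ x ∈ V, gs p.1 p.2 x)]
        exact pow_le_pow_left₀ h0 hp2.le _
    _ ≤ ∑ p : ZMod q × (Fin (2 * s) → ZMod q),
          (if Set.InjOn (hsh p.1) (U : Set (Pt n)) then (∑ x ∈ V, gs p.1 p.2 x) ^ (2 * s)
            else 0) := by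
        refine sum_le_sum_of_subset_of_nonneg (filter_subset _ _) fun p _ _ => ?_
        split_ifs
        · exact hev.pow_nonneg _
        · exact le_rfl
    _ ≤ ∑ _a : ZMod q, (q : ℝ) ^ (2 * s) * ((s : ℝ) ^ (2 * s) * (U.card : ℝ) ^ s) := by
        rw [Fintype.sum_prod_type]
        refine sum_le_sum fun a _ => ?_
        by_cases ha : Set.InjOn (hsh a) (U : Set (Pt n))
        · simp only [if_pos ha]
          refine (moment h3 V a (ha.mono (coe_subset.2 hV))).trans ?_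
          have : (V.card : ℝ) ≤ U.card := by exact_mod_cast card_le_card hV
          gcongr
        · simp only [if_neg ha, sum_const_zero]
          positivity
    _ = _ := by
        rw [sum_const, card_univ, ZMod.card, nsmul_eq_mul]
        ring

open Classical in
/-- Take `T` from `tests`. A bad seed has either a hash that is not injective on `cube ρ`
(`hash_bad`, `card_cube`, `hq`, at most `q ^ (2 s + 1) / 2 ^ (t + 14)` seeds) or some `V ∈ T` with
`|∑ x ∈ V, gs a c x| > (49 / 32) ^ m`; for fixed `a` count these `c` by Markov's inequality with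
`moment` (even power, `Even.pow_abs`) and `Par.moment_num`. -/
lemma seed_bad {t M b s q : ℕ} [Fact q.Prime] (hP : Par n t M b s q) (ρ : Res n)
    (h1 : M ≤ 8 * live ρ) (h2 : live ρ ≤ 2 * M) :
    ((univ.filter fun p : ZMod q × (Fin (2 * s) → ZMod q) =>
      ¬ Good b ρ (gs p.1 p.2)).card : ℝ) * 2 ^ (t + 14) ≤ 2 * (q : ℝ) ^ (2 * s + 1) := by
  have hM := hP.hM
  have hm : 1 ≤ live ρ := by omega
  obtain ⟨T, hT, hTU, hTg⟩ := tests ρ hP.one_le_b hm
  have hnum := hP.moment_num h1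
  set η : ℝ := (49 / 32 : ℝ) ^ live ρ with hη
  have hη0 : 0 < η := by positivity
  set A := univ.filter fun a : ZMod q => ¬ Set.InjOn (hsh a) (cube ρ : Set (Pt n)) with hA
  set E : Finset (Pt n) → Finset (ZMod q × (Fin (2 * s) → ZMod q)) := fun V =>
    univ.filter fun p => Set.InjOn (hsh p.1) (cube ρ : Set (Pt n)) ∧
      η < |∑ x ∈ V, gs p.1 p.2 x| with hE
  have hsub : (univ.filter fun p : ZMod q × (Fin (2 * s) → ZMod q) =>
      ¬ Good b ρ (gs p.1 p.2)) ⊆ (A ×ˢ univ) ∪ T.biUnion E := by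
    intro p hp
    by_cases ha : Set.InjOn (hsh p.1) (cube ρ : Set (Pt n))
    · refine mem_union_right _ ?_
      by_contra hc
      refine (mem_filter.1 hp).2 (hTg _ (abs_gs_le _ _) fun V hV => ?_)
      by_contra hlt
      exact hc (mem_biUnion.2 ⟨V, hV, mem_filter.2 ⟨mem_univ _, ha, not_le.1 hlt⟩⟩)
    · exact mem_union_left _ (mem_product.2 ⟨mem_filter.2 ⟨mem_univ _, ha⟩, mem_univ _⟩)
  have hA1 : A.card * 2 ^ (t + 14) ≤ q := by
    refine le_trans (Nat.mul_le_mul_right _ ((hash_bad (cube ρ)).trans ?_)) hP.hq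
    refine Nat.mul_le_mul_right _ ?_
    rw [card_cube, ← pow_mul, show (16 : ℕ) = 2 ^ 4 by norm_num, ← pow_mul]
    exact Nat.pow_le_pow_right (by norm_num) (by omega)
  have hA2 : ((A ×ˢ (univ : Finset (Fin (2 * s) → ZMod q))).card : ℝ) * 2 ^ (t + 14) ≤
      (q : ℝ) ^ (2 * s + 1) := by
    have e : (A ×ˢ (univ : Finset (Fin (2 * s) → ZMod q))).card = A.card * q ^ (2 * s) := by
      rw [card_product, card_univ, Fintype.card_fun, ZMod.card, Fintype.card_fin]
    have h3 : (A.card : ℝ) * 2 ^ (t + 14) ≤ q := by exact_mod_cast hA1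
    rw [e]
    push_cast
    calc (A.card : ℝ) * (q : ℝ) ^ (2 * s) * 2 ^ (t + 14)
        = (q : ℝ) ^ (2 * s) * ((A.card : ℝ) * 2 ^ (t + 14)) := by ring
      _ ≤ (q : ℝ) ^ (2 * s) * q := by gcongr
      _ = _ := by ring
  have hE1 : ((T.biUnion E).card : ℝ) * η ^ (2 * s) ≤
      (T.card : ℝ) * ((q : ℝ) ^ (2 * s + 1) * ((s : ℝ) ^ (2 * s) * (2 ^ live ρ) ^ s)) := by
    have h3 : ((T.biUnion E).card : ℝ) ≤ ∑ V ∈ T, ((E V).card : ℝ) := by
      exact_mod_cast (card_biUnion_le : (T.biUnion E).card ≤ _)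
    calc ((T.biUnion E).card : ℝ) * η ^ (2 * s) ≤ (∑ V ∈ T, ((E V).card : ℝ)) * η ^ (2 * s) := by
          gcongr
      _ = ∑ V ∈ T, ((E V).card : ℝ) * η ^ (2 * s) := sum_mul _ _ _
      _ ≤ ∑ _V ∈ T, (q : ℝ) ^ (2 * s + 1) * ((s : ℝ) ^ (2 * s) * (2 ^ live ρ) ^ s) := by
          refine sum_le_sum fun V hV => ?_
          have h4 := Se_markov (s := s) hP.three (cube ρ) V (hTU V hV) hη0.le
          rw [card_cube] at h4
          push_cast at h4
          exact h4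
      _ = _ := by rw [sum_const, nsmul_eq_mul]
  have hT' : (T.card : ℝ) ≤ (4 : ℝ) ^ live ρ * (2 * n + 2) ^ (b * (live ρ * 1024 ^ b)) := by
    exact_mod_cast hT
  have hE2 : ((T.biUnion E).card : ℝ) * 2 ^ (t + 14) ≤ (q : ℝ) ^ (2 * s + 1) := by
    refine le_of_mul_le_mul_right ?_ (pow_pos hη0 (2 * s))
    calc ((T.biUnion E).card : ℝ) * 2 ^ (t + 14) * η ^ (2 * s)
        = ((T.biUnion E).card : ℝ) * η ^ (2 * s) * 2 ^ (t + 14) := by ring
      _ ≤ ((4 : ℝ) ^ live ρ * (2 * n + 2) ^ (b * (live ρ * 1024 ^ b))) *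
            ((q : ℝ) ^ (2 * s + 1) * ((s : ℝ) ^ (2 * s) * (2 ^ live ρ) ^ s)) * 2 ^ (t + 14) := by
          refine mul_le_mul_of_nonneg_right (hE1.trans ?_) (by positivity)
          exact mul_le_mul_of_nonneg_right hT' (by positivity)
      _ = (q : ℝ) ^ (2 * s + 1) * (((4 : ℝ) ^ live ρ * (2 * n + 2) ^ (b * (live ρ * 1024 ^ b))) *
            ((s : ℝ) ^ (2 * s) * (2 ^ live ρ) ^ s) * 2 ^ (t + 14)) := by ring
      _ ≤ (q : ℝ) ^ (2 * s + 1) * η ^ (2 * s) :=
          mul_le_mul_of_nonneg_left hnum (by positivity)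
  have hc : ((univ.filter fun p : ZMod q × (Fin (2 * s) → ZMod q) =>
      ¬ Good b ρ (gs p.1 p.2)).card : ℝ) ≤
      ((A ×ˢ (univ : Finset (Fin (2 * s) → ZMod q))).card : ℝ) + ((T.biUnion E).card : ℝ) := by
    exact_mod_cast (card_le_card hsub).trans (card_union_le _ _)
  have h5 := mul_le_mul_of_nonneg_right hc (show (0 : ℝ) ≤ 2 ^ (t + 14) by positivity)
  rw [add_mul] at h5
  linarith

end Vale.Agent.P336
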