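import Vale.Agent.P336.Basic

/-!
Counting in subcubes and weights of restrictions.
-/

namespace Vale.Agent.P336

open Finset

variable {n : ℕ}

lemma W_pow {R : Type} [CommMonoid R] (z : R) (ρ : Res n) :
    z ^ live ρ = ∏ i, if ρ i = none then z else 1 := by
  rw [prod_ite, prod_const, prod_const_one, mul_one, live]

lemma W_sum (φ : Fin n → Option Bool → ℝ) :
    ∑ ρ : Res n, ∏ i, φ i (ρ i) = ∏ i, (φ i none + (φ i (some true) + φ i (some false))) := by
  rw [← Fintype.piFinset_univ, ← prod_univ_sum]
  exact prod_congr rfl fun i _ => by rw [Fintype.sum_option, Fintype.sum_bool]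

/-- Hint: `cube ρ = Fintype.piFinset fun i => if ρ i = none then univ else {value}`. -/
lemma card_cube (ρ : Res n) : (cube ρ).card = 2 ^ live ρ := by
  have h : cube ρ = Fintype.piFinset fun i => univ.filter fun c => ∀ b, ρ i = some b → c = b := by
    ext x
    simp only [mem_cube, Fintype.mem_piFinset, mem_filter, mem_univ, true_and]
  rw [h, Fintype.card_piFinset, W_pow]
  refine prod_congr rfl fun i _ => ?_
  rcases ρ i with _ | _ | _ <;> decide

/-- Hint: `liveL ρ` is a product `(univ.filter _) ×ˢ univ`. -/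
lemma card_liveL (ρ : Res n) : (liveL ρ).card = 2 * live ρ := by
  have h : liveL ρ = (univ.filter fun i => ρ i = none) ×ˢ univ := by
    ext l
    simp only [mem_liveL, mem_product, mem_filter, mem_univ, true_and, and_true]
  rw [h, card_product, card_univ, Fintype.card_bool, live, mul_comm]

/-- Hint: `z ^ live ρ = ∏ i, if ρ i = none then z else 1`, then `Finset.prod_univ_sum` (or
`Fintype.sum_pow`, `Fintype.piFinset_univ`) and `Fintype.sum_option`. -/
lemma sum_pow_live (z : ℝ) : ∑ ρ : Res n, z ^ live ρ = (2 + z) ^ n := by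
  simp only [W_pow]
  rw [W_sum fun _ o => if o = none then z else 1]
  simp only [if_true, reduceCtorEq, if_false, prod_const, card_univ, Fintype.card_fin]
  congr 1
  ring

/-- Hint: the summand is `∏ i, φ i (ρ i)` with `φ i none = u`, `φ i (some b) = if x i = b then 1
else 0`. -/
lemma sum_pow_live_mem (u : ℝ) (x : Pt n) :
    ∑ ρ : Res n, (if x ∈ cube ρ then u ^ live ρ else 0) = (1 + u) ^ n := by
  have h : ∀ ρ : Res n, (if x ∈ cube ρ then u ^ live ρ else 0) =
      ∏ i, if ρ i = none then u else if ρ i = some (x i) then 1 else 0 := by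
    intro ρ
    split_ifs with hx
    · rw [W_pow]
      refine prod_congr rfl fun i _ => ?_
      cases h : ρ i with
      | none => rfl
      | some b => rw [mem_cube.1 hx i b h, if_pos rfl]
    · rw [mem_cube] at hx
      push Not at hx
      obtain ⟨i, b, h1, h2⟩ := hx
      refine (prod_eq_zero (mem_univ i) ?_).symm
      rw [h1, if_neg (Option.some_ne_none b), if_neg fun h => h2 (Option.some.inj h).symm]
  simp only [h]
  rw [W_sum fun i o => if o = none then u else if o = some (x i) then 1 else 0]
  rw [prod_congr rfl (g := fun _ => 1 + u), prod_const, card_univ, Fintype.card_fin]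
  intro i _
  cases x i <;> simp [add_comm]

/-- Averaging over restrictions. -/
lemma avg_cube (u : ℝ) (A : Finset (Pt n)) (g : Pt n → ℝ) :
    (1 + u) ^ n * ∑ x ∈ A, g x = ∑ ρ : Res n, u ^ live ρ * ∑ x ∈ cube ρ ∩ A, g x := by
  have h : ∀ ρ : Res n, u ^ live ρ * ∑ x ∈ cube ρ ∩ A, g x =
      ∑ x ∈ A, (if x ∈ cube ρ then u ^ live ρ else 0) * g x := by
    intro ρ
    rw [inter_comm, ← filter_mem_eq_inter, sum_filter, mul_sum]
    refine sum_congr rfl fun x _ => ?_
    split_ifs
    · rfl
    · rw [mul_zero, zero_mul]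
  simp only [h]
  rw [sum_comm, mul_sum]
  exact sum_congr rfl fun x _ => by rw [← sum_mul, sum_pow_live_mem]

end Vale.Agent.P336
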