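import Vale.Agent.P336S.Spars
import Vale.Agent.P336.W

/-!
A small family of sets that controls all narrow tests.
-/

namespace Vale.Agent.P336

open Finset

variable {n : ℕ}

lemma spB_pow (m b : ℕ) (hm : 1 ≤ m) :
    (2 : ℝ) ^ m * (1 - (1 / 32 : ℝ) ^ (2 * b)) ^ (m * 1024 ^ b) < 1 := by
  have h0 : (1 / 32 : ℝ) ^ (2 * b) * 1024 ^ b = 1 := by
    rw [pow_mul, ← mul_pow]; norm_num
  have h1 : (1 / 32 : ℝ) ^ (2 * b) ≤ 1 := pow_le_one₀ (by norm_num) (by norm_num)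
  have h2 : 1 - (1 / 32 : ℝ) ^ (2 * b) ≤ Real.exp (-(1 / 32 : ℝ) ^ (2 * b)) := by
    have := Real.add_one_le_exp (-(1 / 32 : ℝ) ^ (2 * b))
    linarith
  have h3 : (1 - (1 / 32 : ℝ) ^ (2 * b)) ^ (1024 ^ b) ≤ Real.exp (-1) := by
    refine (pow_le_pow_left₀ (by linarith) h2 _).trans_eq ?_
    rw [← Real.exp_nat_mul]
    congr 1
    push_cast
    linarith
  have h4 : 2 * Real.exp (-1) < 1 := by
    have := Real.exp_neg_one_lt_d9
    linarith
  rw [mul_comm m, pow_mul, ← mul_pow]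
  refine pow_lt_one₀ (by have : 0 ≤ 1 - (1 / 32 : ℝ) ^ (2 * b) := by linarith
                         positivity) (by linarith) (by omega)

/-- Apply `spars` with `L = liveL ρ`, `X = cube ρ`, `a = 1 / 32`, `e = (7 / 8) ^ m`. -/
theorem tests (ρ : Res n) {b : ℕ} (hb : 1 ≤ b) (hm : 1 ≤ live ρ) :
    ∃ T : Finset (Finset (Pt n)),
      T.card ≤ 4 ^ live ρ * (2 * n + 2) ^ (b * (live ρ * 1024 ^ b)) ∧ (∀ V ∈ T, V ⊆ cube ρ) ∧
      ∀ g : Pt n → ℝ, (∀ x, |g x| ≤ 1) → (∀ V ∈ T, |∑ x ∈ V, g x| ≤ (49 / 32 : ℝ) ^ live ρ) →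
        Good b ρ g := by
  classical
  have hc : ((cube ρ).card : ℝ) = 2 ^ live ρ := by rw [card_cube]; norm_num
  obtain ⟨F, h1, h2, h3⟩ := Vale.Agent.P336S.spars (liveL ρ) (cube ρ)
    (fun (l : Fin n × Bool) (x : Pt n) => x l.1 = l.2) b (live ρ * 1024 ^ b)
    (a := 1 / 32) (by norm_num) (by norm_num) (by rw [hc]; exact spB_pow _ b hm)
  refine ⟨F, h1.trans ?_, h2, fun g hg hF B hB => ?_⟩
  · have hl : live ρ ≤ n := by
      have := card_le_univ (univ.filter fun i => ρ i = none)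
      rwa [Fintype.card_fin] at this
    rw [card_liveL, pow_mul 2 2, pow_mul (2 * n + 2)]
    refine Nat.mul_le_mul (by norm_num) (Nat.pow_le_pow_left ?_ _)
    have h4 : (2 * live ρ + 1) ^ b ≤ (2 * n + 1) ^ b := Nat.pow_le_pow_left (by omega) _
    have h5 : (2 * n + 1) ^ b < (2 * n + 2) ^ b := Nat.pow_lt_pow_left (by omega) (by omega)
    omega
  · have h4 := h3 g ((7 / 8) ^ live ρ) (by positivity) (fun x _ => hg x)
      (fun V hV => (hF V hV).trans_eq (by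
        rw [hc, ← pow_mul, mul_comm (live ρ), pow_mul, ← mul_pow]; norm_num))
      ((liveL ρ).powerset.filter fun κ => κ.card ≤ b ∧ ∀ y ∈ B, ¬ Mat y κ)
      (fun κ hκ => ⟨mem_powerset.1 (mem_filter.1 hκ).1, (mem_filter.1 hκ).2.1⟩) B
      (fun x => ⟨fun hx => ⟨hB.1 hx, fun κ hκ => (mem_filter.1 hκ).2.2 x hx⟩, fun hx => by
        by_contra hn
        obtain ⟨κ, k1, k2, k3, k4⟩ := hB.2 x hx.1 hn
        exact hx.2 κ (mem_filter.2 ⟨mem_powerset.2 k1, k2, k4⟩) k3⟩)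
    refine h4.trans ?_
    rw [hc, card_liveL, pow_mul, ← mul_pow, ← mul_pow]
    exact pow_le_pow_left₀ (by norm_num) (by norm_num) _

end Vale.Agent.P336
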