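import Vale.Agent.P336.W

/-!
Closure properties of narrow tests and fixing a pattern.
-/

namespace Vale.Agent.P336

open Finset

variable {n : ℕ}

lemma T_mat {ρ : Res n} {x y : Pt n} {κ : Pat n} (hx : x ∈ cube ρ) (hy : y ∈ cube ρ)
    (hm : Mat x κ) (h : Mat y (κ ∩ liveL ρ)) : Mat y κ := by
  intro l hl
  cases e : ρ l.1 with
  | none => exact h l (mem_inter.2 ⟨hl, mem_liveL.2 e⟩)
  | some c => rw [mem_cube.1 hy _ _ e, ← mem_cube.1 hx _ _ e, hm l hl]

lemma T_fix_mem (ρ : Res n) {τ : Pat n} {x : Pt n} (hx : Mat x τ) {i : Fin n} {c : Bool}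
    (hl : (i, c) ∈ τ) : fixp ρ τ i = some c := by
  unfold fixp
  cases c with
  | true => rw [if_pos hl]
  | false =>
    have h : (i, true) ∉ τ := fun h => by
      have h1 : x i = true := hx _ h
      have h2 : x i = false := hx _ hl
      rw [h1] at h2
      exact Bool.noConfusion h2
    rw [if_neg h, if_pos hl]

lemma T_fix_not (ρ : Res n) {τ : Pat n} {i : Fin n} (h : ¬ ∃ c, (i, c) ∈ τ) :
    fixp ρ τ i = ρ i := by
  unfold fixp
  rw [if_neg fun e => h ⟨_, e⟩, if_neg fun e => h ⟨_, e⟩]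

lemma isTest_cube (b : ℕ) (ρ : Res n) : IsTest b ρ (cube ρ) := by
  exact ⟨Subset.rfl, fun x hx hn => absurd hx hn⟩

lemma IsTest.inter {b : ℕ} {ρ : Res n} {B B' : Finset (Pt n)} (h : IsTest b ρ B)
    (h' : IsTest b ρ B') : IsTest b ρ (B ∩ B') := by
  refine ⟨inter_subset_left.trans h.1, fun x hx hn => ?_⟩
  by_cases hB : x ∈ B
  · obtain ⟨κ, h1, h2, h3, h4⟩ := h'.2 x hx fun e => hn (mem_inter.2 ⟨hB, e⟩)
    exact ⟨κ, h1, h2, h3, fun y hy => h4 y (mem_inter.1 hy).2⟩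
  · obtain ⟨κ, h1, h2, h3, h4⟩ := h.2 x hx hB
    exact ⟨κ, h1, h2, h3, fun y hy => h4 y (mem_inter.1 hy).1⟩

/-- Hint: replace `κ` by `κ ∩ liveL ρ'`; on the other literals of `κ` all points of `cube ρ'`
agree with `x`. -/
lemma IsTest.restrict {b : ℕ} {ρ ρ' : Res n} {B : Finset (Pt n)} (h : IsTest b ρ B)
    (hs : cube ρ' ⊆ cube ρ) : IsTest b ρ' (B ∩ cube ρ') := by
  refine ⟨inter_subset_right, fun x hx hn => ?_⟩
  obtain ⟨κ, -, h2, h3, h4⟩ := h.2 x (hs hx) fun e => hn (mem_inter.2 ⟨e, hx⟩)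
  refine ⟨κ ∩ liveL ρ', inter_subset_right, (card_le_card inter_subset_left).trans h2,
    fun l hl => h3 l (mem_inter.1 hl).1, fun y hy hm => ?_⟩
  exact h4 y (mem_inter.1 hy).1 (T_mat hx (mem_inter.1 hy).2 h3 hm)

lemma mem_cube_fixp {ρ : Res n} {τ : Pat n} (h : ∃ x ∈ cube ρ, Mat x τ) {y : Pt n} :
    y ∈ cube (fixp ρ τ) ↔ y ∈ cube ρ ∧ Mat y τ := by
  obtain ⟨x, hx, hm⟩ := h
  rw [mem_cube, mem_cube]
  refine ⟨fun h => ⟨fun i b e => ?_, fun l hl => h _ _ (T_fix_mem ρ hm hl)⟩, fun h i b e => ?_⟩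
  · by_cases hc : ∃ c, (i, c) ∈ τ
    · obtain ⟨c, hc⟩ := hc
      rw [h i c (T_fix_mem ρ hm hc), ← mem_cube.1 hx i b e]
      exact (hm _ hc).symm
    · exact h i b ((T_fix_not ρ hc).trans e)
  · by_cases hc : ∃ c, (i, c) ∈ τ
    · obtain ⟨c, hc⟩ := hc
      rw [T_fix_mem ρ hm hc] at e
      rw [← Option.some.inj e]
      exact h.2 _ hc
    · exact h.1 i b ((T_fix_not ρ hc).symm.trans e)

/-- Hint: `Prod.fst` is injective on a pattern that is matched by some point. -/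
lemma live_fixp (ρ : Res n) {τ : Pat n} (h : ∃ x, Mat x τ) :
    live ρ = live (fixp ρ τ) + (τ ∩ liveL ρ).card := by
  obtain ⟨x, hm⟩ := h
  have hinj : Set.InjOn Prod.fst ((τ ∩ liveL ρ : Pat n) : Set (Fin n × Bool)) := by
    intro l hl l' hl' e
    refine Prod.ext e ?_
    rw [← hm l (mem_inter.1 hl).1, ← hm l' (mem_inter.1 hl').1, e]
  unfold live
  rw [← card_image_of_injOn hinj, ← card_union_of_disjoint]
  · congr 1
    ext i
    simp only [mem_filter, mem_univ, true_and, mem_union, mem_image, mem_inter, mem_liveL]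
    constructor
    · intro e
      by_cases hc : ∃ c, (i, c) ∈ τ
      · obtain ⟨c, hc⟩ := hc
        exact Or.inr ⟨(i, c), ⟨hc, e⟩, rfl⟩
      · exact Or.inl ((T_fix_not ρ hc).trans e)
    · rintro (e | ⟨l, ⟨-, e⟩, rfl⟩)
      · by_cases hc : ∃ c, (i, c) ∈ τ
        · obtain ⟨c, hc⟩ := hc
          rw [T_fix_mem ρ hm hc] at e
          exact absurd e (Option.some_ne_none c)
        · exact (T_fix_not ρ hc).symm.trans e
      · exact e
  · rw [disjoint_left]
    intro i hi hi'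
    obtain ⟨l, hl, rfl⟩ := mem_image.1 hi'
    have e := (mem_filter.1 hi).2
    rw [T_fix_mem ρ hm (c := l.2) (mem_inter.1 hl).1] at e
    exact absurd e (Option.some_ne_none _)

/-- A restriction is recovered from the fixed restriction and the live part of the pattern. -/
lemma fixp_inj {ρ ρ' : Res n} {τ : Pat n} (h : ∃ x ∈ cube ρ, Mat x τ)
    (h' : ∃ x ∈ cube ρ', Mat x τ) (e : fixp ρ τ = fixp ρ' τ)
    (e' : τ ∩ liveL ρ = τ ∩ liveL ρ') : ρ = ρ' := by
  obtain ⟨x, hx, hm⟩ := h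
  obtain ⟨x', hx', hm'⟩ := h'
  funext i
  by_cases hc : ∃ c, (i, c) ∈ τ
  · obtain ⟨c, hc⟩ := hc
    have hiff : ρ i = none ↔ ρ' i = none := by
      have h1 : (i, c) ∈ τ ∩ liveL ρ ↔ (i, c) ∈ τ ∩ liveL ρ' := by rw [e']
      simpa only [mem_inter, mem_liveL, hc, true_and] using h1
    cases e1 : ρ i with
    | none => exact (hiff.1 e1).symm
    | some b =>
      cases e2 : ρ' i with
      | none => rw [hiff.2 e2] at e1; exact absurd e1.symm (Option.some_ne_none b)
      | some b' =>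
        have h1 : x i = c := hm _ hc
        have h2 : x' i = c := hm' _ hc
        rw [← mem_cube.1 hx i b e1, ← mem_cube.1 hx' i b' e2, h1, h2]
  · rw [← T_fix_not ρ hc, e, T_fix_not ρ' hc]

lemma mem_sol_take {H : List (Pat n)} {I : ℕ} (hI : I ≤ H.length) {x : Pt n} :
    x ∈ sol (H.take I) ↔ ∀ i < I, ¬ Mat x (H.getD i ∅) := by
  rw [mem_sol]
  constructor
  · intro h i hi
    refine h _ (List.mem_take_iff_getElem.2 ⟨i, by omega, ?_⟩)
    rw [List.getD_eq_getElem _ _ (by omega)]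
  · intro h τ hτ
    obtain ⟨i, hi, rfl⟩ := List.mem_take_iff_getElem.1 hτ
    have h1 := h i (by omega)
    rwa [List.getD_eq_getElem _ _ (by omega)] at h1

/-- The narrow patterns among the first `I` form a test. Hint: `κ = H.getD i ∅ ∩ liveL ρ`. -/
lemma isTest_narrow (H : List (Pat n)) (b I : ℕ) (ρ : Res n) :
    IsTest b ρ ((cube ρ).filter fun x =>
      ∀ i < I, (H.getD i ∅ ∩ liveL ρ).card ≤ b → ¬ Mat x (H.getD i ∅)) := by
  refine ⟨filter_subset _ _, fun x hx hn => ?_⟩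
  have h1 : ∃ i < I, (H.getD i ∅ ∩ liveL ρ).card ≤ b ∧ Mat x (H.getD i ∅) := by
    by_contra hc
    exact hn (mem_filter.2 ⟨hx, fun i hi hb hm => hc ⟨i, hi, hb, hm⟩⟩)
  obtain ⟨i, hi, hb, hm⟩ := h1
  refine ⟨H.getD i ∅ ∩ liveL ρ, inter_subset_right, hb, fun l hl => hm l (mem_inter.1 hl).1,
    fun y hy hy' => ?_⟩
  exact (mem_filter.1 hy).2 i hi hb (T_mat hx (mem_filter.1 hy).1 hm hy')

/-- Hint: empty if no point matches; otherwise the set is `cube (fixp (fun _ => none) κ)`, use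
`card_cube`, `live_fixp`. -/
lemma card_mat (κ : Pat n) :
    (univ.filter fun x : Pt n => Mat x κ).card * 2 ^ κ.card ≤ 2 ^ n := by
  by_cases h : ∃ x, Mat x κ
  · have hall : ∀ y : Pt n, y ∈ cube (fun _ => none : Res n) := fun y =>
      mem_cube.2 fun i b e => absurd e.symm (Option.some_ne_none b)
    have h1 : (univ.filter fun x : Pt n => Mat x κ) = cube (fixp (fun _ => none) κ) := by
      obtain ⟨x, hx⟩ := h
      ext y
      rw [mem_cube_fixp ⟨x, hall x, hx⟩]
      simp [hall]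
    have h2 := live_fixp (fun _ => none : Res n) h
    have h3 : live (fun _ => none : Res n) = n := by simp [live]
    have h4 : κ ∩ liveL (fun _ => none : Res n) = κ :=
      inter_eq_left.2 fun l _ => mem_liveL.2 rfl
    rw [h3, h4] at h2
    rw [h1, card_cube, ← pow_add, ← h2]
  · have h1 : (univ.filter fun x : Pt n => Mat x κ) = ∅ :=
      filter_eq_empty_iff.2 fun x _ hx => h ⟨x, hx⟩
    rw [h1, card_empty, zero_mul]
    exact Nat.zero_le _

end Vale.Agent.P336
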