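import Vale.Agent.P336.RC
import Vale.Agent.P336.Av

/-!
Truncation of wide patterns and the lower bound for a fixed seed.
-/

namespace Vale.Agent.P336

open Finset

variable {n : ℕ}

lemma tr_one (τ : Pat n) (k : ℕ) : ∃ κ : Pat n, κ.card ≤ k ∧ κ ⊆ τ ∧
    (univ.filter fun x : Pt n => Mat x κ ∧ ¬ Mat x τ).card * 2 ^ k ≤ 2 ^ n := by
  rcases le_total τ.card k with h | h
  · exact ⟨τ, h, Subset.rfl, by simp⟩
  · obtain ⟨κ, h1, h2⟩ := exists_subset_card_eq h
    refine ⟨κ, h2.le, h1, le_trans (Nat.mul_le_mul_right _ (card_le_card fun x hx => ?_))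
      (h2 ▸ card_mat κ)⟩
    exact mem_filter.2 ⟨mem_univ _, (mem_filter.1 hx).2.1⟩

lemma tr_diff (H : List (Pat n)) (k : ℕ) :
    ∃ H' : List (Pat n), (∀ τ ∈ H', τ.card ≤ k) ∧ sol H' ⊆ sol H ∧
      (sol H \ sol H').card * 2 ^ k ≤ H.length * 2 ^ n := by
  induction H with
  | nil => exact ⟨[], by simp, Subset.rfl, by simp⟩
  | cons τ H ih =>
    obtain ⟨H', h1, h2, h3⟩ := ih
    obtain ⟨κ, k1, k2, k3⟩ := tr_one τ k
    refine ⟨κ :: H', List.forall_mem_cons.2 ⟨k1, h1⟩, fun x hx => ?_, ?_⟩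
    · rw [mem_sol, List.forall_mem_cons] at hx ⊢
      exact ⟨fun h => hx.1 fun l hl => h l (k2 hl), mem_sol.1 (h2 (mem_sol.2 hx.2))⟩
    · have h4 : sol (τ :: H) \ sol (κ :: H') ⊆
          (sol H \ sol H') ∪ univ.filter fun x : Pt n => Mat x κ ∧ ¬ Mat x τ := by
        intro x hx
        rw [mem_sdiff, mem_sol, mem_sol, List.forall_mem_cons, List.forall_mem_cons] at hx
        by_cases h : Mat x κ
        · exact mem_union_right _ (mem_filter.2 ⟨mem_univ _, h, hx.1.1⟩)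
        · exact mem_union_left _ (mem_sdiff.2 ⟨mem_sol.2 hx.1.2, fun h5 => hx.2 ⟨h, mem_sol.1 h5⟩⟩)
      refine (Nat.mul_le_mul_right _ ((card_le_card h4).trans (card_union_le _ _))).trans ?_
      rw [add_mul, List.length_cons, add_mul, one_mul]
      exact Nat.add_le_add h3 k3

lemma tr_sg {q : ℕ} (v : ZMod q) :
    sg v = 2 * (if v.val % 2 = 1 then 1 else 0) + (if v = 0 then 1 else 0) - 1 := by
  unfold sg
  by_cases h : v = 0
  · simp [h]
  · rw [if_neg h, if_neg h]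
    split_ifs <;> norm_num

/-- Replace every pattern with more than `k` literals by a subset with `k` literals
(`Finset.exists_subset_card_eq`); induction on `H` with `card_mat`. -/
lemma trunc (H : List (Pat n)) (k : ℕ) :
    ∃ H' : List (Pat n), (∀ τ ∈ H', τ.card ≤ k) ∧ sol H' ⊆ sol H ∧
      (sol H).card * 2 ^ k ≤ (sol H').card * 2 ^ k + H.length * 2 ^ n := by
  obtain ⟨H', h1, h2, h3⟩ := tr_diff H k
  refine ⟨H', h1, h2, ?_⟩
  rw [← card_sdiff_add_card_eq_card h2, add_mul]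
  omega

/-- Take the seed of `exists_seed`. By `restr` with `k = 2 t + 6`, `u = M / n`, `Par.eps_num`, every
list `H` of patterns of size at most `k` has `|∑ x ∈ sol H, gs a c x| * 2 ^ (t + 8) ≤ 2 ^ n`. With
`H = []` and the bound on zeros, the set `F` of points with odd value has more than `2 ^ n / 16`
elements. On `F` the sign is `1`, so each truncated CNF has at most `2 ^ n / 2 ^ (t + 8)` solutions
and `F.card ≤ 2 ^ t * (2 ^ n / 2 ^ (t + 8) + 2 ^ t * 2 ^ n / 2 ^ (2 t + 6))`. -/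
theorem core {t M b s q : ℕ} [Fact q.Prime] (hP : Par n t M b s q) :
    ∃ (a : ZMod q) (c : Fin (2 * s) → ZMod q), ∀ (ι : Type) (J : Finset ι)
      (Hs : ι → List (Pat n)), J.card ≤ 2 ^ t → (∀ j ∈ J, (Hs j).length ≤ 2 ^ t) →
      ¬ ∀ x, (pv c (hsh a x)).val % 2 = 1 ↔ ∃ j ∈ J, x ∈ sol (Hs j) := by
  obtain ⟨a, c, cf, h1, h2, h3⟩ := exists_seed hP
  refine ⟨a, c, fun ι J Hs hJ hH hx => ?_⟩
  have hu : (0 : ℝ) ≤ (M : ℝ) / n := by positivity
  have key : ∀ H : List (Pat n), (∀ τ ∈ H, τ.card ≤ 2 * t + 6) →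
      |∑ x ∈ sol H, gs a c x| * (2 ^ t * 256) ≤ 2 ^ n := fun H hk => by
    have h4 := mul_le_mul_of_nonneg_right (restr H hk hu hP.eps_num (gs a c) cf h1)
      (show (0 : ℝ) ≤ 2 ^ t * 256 by positivity)
    refine le_of_mul_le_mul_left ?_ (show (0 : ℝ) < (1 + (M : ℝ) / n) ^ n by positivity)
    rw [← mul_assoc]
    refine h4.trans (le_trans (le_of_eq ?_) h2)
    ring
  obtain ⟨F, hF⟩ : ∃ F : Finset (Pt n), F = univ.filter fun x => (pv c (hsh a x)).val % 2 = 1 :=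
    ⟨_, rfl⟩
  have hT : (1 : ℝ) ≤ 2 ^ t := one_le_pow₀ one_le_two
  have hN : (0 : ℝ) < 2 ^ n := by positivity
  have h5 : (2 : ℝ) ^ n < 16 * F.card := by
    have k1 := key [] (by simp)
    have k2 : ∑ x ∈ sol ([] : List (Pat n)), gs a c x = 2 * F.card +
        ((univ.filter fun x : Pt n => pv c (hsh a x) = 0).card : ℝ) - 2 ^ n := by
      have e : sol ([] : List (Pat n)) = univ := by simp [sol]
      simp only [e, gs, tr_sg, sum_sub_distrib, sum_add_distrib, ← mul_sum, sum_boole, hF]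
      simp
    have k3 : (4 : ℝ) * ((univ.filter fun x : Pt n => pv c (hsh a x) = 0).card : ℝ) ≤
        3 * 2 ^ n := by exact_mod_cast h3
    have k4 := neg_abs_le (∑ x ∈ sol ([] : List (Pat n)), gs a c x)
    have k5 := mul_le_mul_of_nonneg_left hT (abs_nonneg (∑ x ∈ sol ([] : List (Pat n)), gs a c x))
    linarith
  have h6 : ∀ j ∈ J, ((sol (Hs j)).card : ℝ) * (2 ^ t * 256) ≤ 5 * 2 ^ n := fun j hj => by
    obtain ⟨H', k1, k2, k3⟩ := trunc (Hs j) (2 * t + 6)
    have k4 := key H' k1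
    have k5 : ∑ x ∈ sol H', gs a c x = (sol H').card := by
      rw [card_eq_sum_ones, Nat.cast_sum]
      refine sum_congr rfl fun x h => ?_
      have k6 := (hx x).2 ⟨j, hj, k2 h⟩
      have k7 : pv c (hsh a x) ≠ 0 := fun h0 => by simp [h0] at k6
      rw [gs, sg, if_neg k7, if_pos k6, Nat.cast_one]
    rw [k5, Nat.abs_cast] at k4
    have k8 : (sol (Hs j)).card * 2 ^ (2 * t + 6) ≤
        (sol H').card * 2 ^ (2 * t + 6) + 2 ^ t * 2 ^ n :=
      k3.trans (Nat.add_le_add_left (Nat.mul_le_mul_right _ (hH j hj)) _)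
    have k9 : ((sol (Hs j)).card : ℝ) * 2 ^ (2 * t + 6) ≤
        (sol H').card * 2 ^ (2 * t + 6) + 2 ^ t * 2 ^ n := by exact_mod_cast k8
    have e : (2 : ℝ) ^ (2 * t + 6) = 2 ^ t * (2 ^ t * 64) := by ring
    rw [e] at k9
    have k10 : ((sol (Hs j)).card : ℝ) * (2 ^ t * 64) ≤ (sol H').card * (2 ^ t * 64) + 2 ^ n := by
      refine le_of_mul_le_mul_left ?_ (show (0 : ℝ) < 2 ^ t by positivity)
      linarith
    linarith
  classical
  have h7 : F.card ≤ ∑ j ∈ J, (sol (Hs j)).card := by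
    refine le_trans (card_le_card fun x h => ?_) card_biUnion_le
    rw [hF] at h
    exact mem_biUnion.2 ((hx x).1 (mem_filter.1 h).2)
  have h8 : (F.card : ℝ) * (2 ^ t * 256) ≤ 2 ^ t * (5 * 2 ^ n) := by
    have k1 : (F.card : ℝ) ≤ ∑ j ∈ J, ((sol (Hs j)).card : ℝ) := by exact_mod_cast h7
    have k2 : (J.card : ℝ) ≤ 2 ^ t := by exact_mod_cast hJ
    refine (mul_le_mul_of_nonneg_right k1 (by positivity)).trans ?_
    rw [sum_mul]
    refine (sum_le_card_nsmul _ _ _ h6).trans ?_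
    rw [nsmul_eq_mul]
    exact mul_le_mul_of_nonneg_right k2 (by positivity)
  have h9 : (F.card : ℝ) * 256 ≤ 5 * 2 ^ n := by
    refine le_of_mul_le_mul_left ?_ (show (0 : ℝ) < 2 ^ t by positivity)
    linarith
  linarith

end Vale.Agent.P336
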